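import Vale.Agent.P226h14.Main

open MeasureTheory ProbabilityTheory Real Set Filter Topology
open scoped RealInnerProductSpace ENNReal NNReal

namespace Vale.Agent.P226h6

open Vale.Agent.P226h14

/-- the integral of `r - l` against the Gaussian over a set below `τ` -/
lemma chord_one_dim {C : Set ℝ} (hC : MeasurableSet C) {l τ : ℝ} (hl : l ≤ τ)
    (hCτ : C ⊆ Iic τ) :
    ∫ r in C, (r - l) ∂(gaussianReal 0 1) ≤ ph 0 * (τ - l) ^ 2 / 2 := by
  have hid : Integrable (fun r : ℝ => r - l) (gaussianReal 0 1) := by
    have h1 : Integrable (fun r : ℝ => r) (gaussianReal 0 1) :=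
      memLp_id_gaussianReal (μ := 0) (v := 1) 1 |>.integrable (by norm_num)
    exact h1.sub (integrable_const _)
  have h1 : ∫ r in C, (r - l) ∂(gaussianReal 0 1) ≤ ∫ r in Icc l τ, (r - l) ∂(gaussianReal 0 1) := by
    rw [← integral_indicator hC, ← integral_indicator measurableSet_Icc]
    apply integral_mono (hid.indicator hC) (hid.indicator measurableSet_Icc)
    intro r
    by_cases hr : r ∈ C
    · simp only [indicator_of_mem hr]
      by_cases hrl : l ≤ r
      · rw [indicator_of_mem (show r ∈ Icc l τ from ⟨hrl, hCτ hr⟩)]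
      · have h2 : r - l ≤ 0 := by linarith [not_le.1 hrl]
        refine h2.trans ?_
        apply indicator_nonneg
        intro y hy
        linarith [hy.1]
    · simp only [indicator_of_notMem hr]
      apply indicator_nonneg
      intro y hy
      linarith [hy.1]
  have h2 : ∫ r in Icc l τ, (r - l) ∂(gaussianReal 0 1) = ∫ r in Icc l τ, ph r * (r - l) :=
    setIntegral_gaussian measurableSet_Icc _
  have hcont : ContinuousOn (fun r : ℝ => ph 0 * (r - l)) (Icc l τ) := by fun_prop
  have hi2 : IntegrableOn (fun r : ℝ => ph 0 * (r - l)) (Icc l τ) :=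
    hcont.integrableOn_compact isCompact_Icc
  have hph : Continuous ph := by
    unfold ph
    fun_prop
  have hi1 : IntegrableOn (fun r : ℝ => ph r * (r - l)) (Icc l τ) :=
    (Continuous.continuousOn (by fun_prop)).integrableOn_compact isCompact_Icc
  have h3 : ∫ r in Icc l τ, ph r * (r - l) ≤ ∫ r in Icc l τ, ph 0 * (r - l) := by
    apply setIntegral_mono_on hi1 hi2 measurableSet_Icc
    intro r hr
    exact mul_le_mul_of_nonneg_right (ph_le_ph_zero r) (by linarith [hr.1])
  have h4 : ∫ r in Icc l τ, ph 0 * (r - l) = ph 0 * (τ - l) ^ 2 / 2 := by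
    rw [integral_const_mul, integral_Icc_eq_integral_Ioc, ← intervalIntegral.integral_of_le hl]
    have : ∫ r in l..τ, (r - l) = (τ - l) ^ 2 / 2 := by
      rw [intervalIntegral.integral_sub (by simp) (by simp)]
      simp
      ring
    rw [this]
    ring
  linarith

variable {E : Type*} [NormedAddCommGroup E] [InnerProductSpace ℝ E] [FiniteDimensional ℝ E]
  [MeasurableSpace E] [BorelSpace E]

/-- the slice of an indicator -/
lemma integrable_inner_sub_std (u : E) (l : ℝ) :
    Integrable (fun y : E => ⟪u, y⟫ - l) (stdGaussian E) :=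
  (integrable_inner_std u).sub (integrable_const _)

lemma measurable_slice_right (u x : E) : Measurable fun r : ℝ => slice u (x, r) :=
  (measurable_slice u).comp (measurable_const.prodMk measurable_id)

/-- The main chord inequality: the first moment of the level set along the direction of `v j` is
controlled by the mass of the layer just above the level. -/
lemma chord_moment {ι : Type*} [Fintype ι] (v : ι → E) (j : ι)
    (hneg : ∀ l, l ≠ j → ⟪v l, v j⟫ ≤ 0) (hvj : v j ≠ 0) {t T : ℝ}
    (ht : 0 < t) (htT : t < T) {l : ℝ} (hl : l ≤ t / ‖v j‖) :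
    ((T - t) / ‖v j‖ * ph (T / ‖v j‖)) *
        ∫ y in {x | ∀ l, ⟪v l, x⟫ ≤ t}, (⟪(‖v j‖⁻¹ • v j : E), y⟫ - l) ∂(stdGaussian E) ≤
      (ph 0 * (t / ‖v j‖ - l) ^ 2 / 2) *
        (stdGaussian E).real {x | t < ⟪v j, x⟫ ∧ ⟪v j, x⟫ ≤ T ∧ ∀ l, l ≠ j → ⟪v l, x⟫ ≤ t} := by
  classical
  set s : ℝ := ‖v j‖ with hs
  have hs0 : 0 < s := norm_pos_iff.2 hvj
  set u : E := s⁻¹ • v j with hu
  have hu1 : ‖u‖ = 1 := by
    rw [hu, norm_smul, norm_inv, norm_norm, ← hs]
    field_simp
  have hvu : ⟪v j, u⟫ = s := by
    rw [hu, inner_smul_right, real_inner_self_eq_norm_sq, ← hs]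
    field_simp
  have huu : ⟪u, u⟫ = 1 := by
    rw [real_inner_self_eq_norm_sq, hu1]
    norm_num
  have hux : ∀ x, ⟪u, x⟫ = s⁻¹ * ⟪v j, x⟫ := by
    intro x
    rw [hu, inner_smul_left]
    simp
  have hjs : ∀ x r, ⟪v j, slice u (x, r)⟫ = s * r := by
    intro x r
    rw [inner_slice, hvu, hux]
    field_simp
    ring
  have hus : ∀ x r, ⟪u, slice u (x, r)⟫ = r := by
    intro x r
    rw [inner_slice, huu]
    ring
  have hls : ∀ l, l ≠ j → ⟪v l, u⟫ ≤ 0 := by
    intro l hl
    rw [hu, inner_smul_right]
    have := hneg l hl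
    have h2 : 0 ≤ s⁻¹ := by positivity
    nlinarith
  set K : Set E := {x | ∀ l, ⟪v l, x⟫ ≤ t} with hK
  set S : Set E := {x | t < ⟪v j, x⟫ ∧ ⟪v j, x⟫ ≤ T ∧ ∀ l, l ≠ j → ⟪v l, x⟫ ≤ t} with hS
  have hmK : MeasurableSet K := measurableSet_K v t
  have hmS : MeasurableSet S := measurableSet_layer v j
  set f : E → ℝ := K.indicator fun y => ⟪u, y⟫ - l with hf
  set g : E → ℝ := S.indicator fun _ => (1 : ℝ) with hg
  have hfint : Integrable f (stdGaussian E) := (integrable_inner_sub_std u l).indicator hmK
  have hgint : Integrable g (stdGaussian E) := (integrable_const (1 : ℝ)).indicator hmS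
  set C : E → Set ℝ := fun x => {r | slice u (x, r) ∈ K} with hC
  set D : E → Set ℝ := fun x => {r | slice u (x, r) ∈ S} with hD
  have hmC : ∀ x, MeasurableSet (C x) := fun x => (measurable_slice_right u x) hmK
  have hmD : ∀ x, MeasurableSet (D x) := fun x => (measurable_slice_right u x) hmS
  have hfs : ∀ x r, f (slice u (x, r)) = (C x).indicator (fun r => r - l) r := by
    intro x r
    by_cases h : slice u (x, r) ∈ K
    · rw [hf, indicator_of_mem h, indicator_of_mem (show r ∈ C x from h), hus]
    · rw [hf, indicator_of_notMem h, indicator_of_notMem (show r ∉ C x from h)]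
  have hgs : ∀ x r, g (slice u (x, r)) = (D x).indicator (fun _ => (1 : ℝ)) r := by
    intro x r
    by_cases h : slice u (x, r) ∈ S
    · rw [hg, indicator_of_mem h, indicator_of_mem (show r ∈ D x from h)]
    · rw [hg, indicator_of_notMem h, indicator_of_notMem (show r ∉ D x from h)]
  have hfi : ∀ x, ∫ r, f (slice u (x, r)) ∂(gaussianReal 0 1) = ∫ r in C x, (r - l) ∂(gaussianReal 0 1) := by
    intro x
    simp_rw [hfs]
    exact integral_indicator (hmC x)
  have hgi : ∀ x, ∫ r, g (slice u (x, r)) ∂(gaussianReal 0 1) = (gaussianReal 0 1).real (D x) := by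
    intro x
    simp_rw [hgs]
    rw [integral_indicator (hmD x)]
    simp
  have e1 : ∫ y in K, (⟪u, y⟫ - l) ∂(stdGaussian E) = ∫ x, ∫ r, f (slice u (x, r)) ∂(gaussianReal 0 1) ∂(stdGaussian E) := by
    rw [← integral_indicator hmK]
    exact integral_slice u hu1 hfint
  have e2 : (stdGaussian E).real S = ∫ x, ∫ r, g (slice u (x, r)) ∂(gaussianReal 0 1) ∂(stdGaussian E) := by
    rw [← integral_slice u hu1 hgint]
    simp only [hg]
    rw [integral_indicator hmS]
    simp
  obtain ⟨-, hout1⟩ := integrable_slice u hu1 hfint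
  obtain ⟨-, hout2⟩ := integrable_slice u hu1 hgint
  rw [e1, e2, ← integral_const_mul, ← integral_const_mul]
  apply integral_mono (hout1.const_mul _) (hout2.const_mul _)
  intro x
  simp only
  rw [hfi, hgi]
  set W : ℝ := ph 0 * (t / s - l) ^ 2 / 2 with hW
  have hW0 : 0 ≤ W := by
    have := ph_pos 0
    positivity
  have hP0 : 0 ≤ (T - t) / s * ph (T / s) := by
    have h1 : 0 ≤ T - t := by linarith
    have := ph_pos (T / s)
    positivity
  by_cases hne : (C x).Nonempty
  · obtain ⟨r0, hr0⟩ := hne
    have hsubC : C x ⊆ Iic (t / s) := by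
      intro r hr
      have h1 := hr j
      rw [hjs] at h1
      show r ≤ t / s
      rw [le_div_iff₀ hs0]
      linarith
    have hsub2 : Ioc (t / s) (T / s) ⊆ D x := by
      intro r hr
      have hr1 : t < s * r := by
        have := hr.1
        rw [div_lt_iff₀ hs0] at this
        linarith
      have hr2 : s * r ≤ T := by
        have := hr.2
        rw [le_div_iff₀ hs0] at this
        linarith
      refine ⟨by rw [hjs]; exact hr1, by rw [hjs]; exact hr2, ?_⟩
      intro m hm
      have h0 := hr0 m
      have hr0j := hr0 j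
      rw [hjs] at hr0j
      rw [inner_slice] at h0 ⊢
      have hle : r0 ≤ r := by
        nlinarith
      have := hls m hm
      nlinarith
    have hI : ∫ r in C x, (r - l) ∂(gaussianReal 0 1) ≤ W := chord_one_dim (hmC x) hl hsubC
    have hlo : (T - t) / s * ph (T / s) ≤ (gaussianReal 0 1).real (D x) := by
      have hab : t / s ≤ T / s := div_le_div_of_nonneg_right htT.le hs0.le
      have h0 : 0 ≤ t / s := by positivity
      have h1 := gauss_Ioc_lower h0 hab
      have h2 : (gaussianReal 0 1).real (Ioc (t / s) (T / s)) ≤ (gaussianReal 0 1).real (D x) :=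
        measureReal_mono hsub2
      have h3 : T / s - t / s = (T - t) / s := by ring
      rw [h3] at h1
      linarith
    calc (T - t) / s * ph (T / s) * ∫ r in C x, (r - l) ∂(gaussianReal 0 1)
        ≤ (T - t) / s * ph (T / s) * W := mul_le_mul_of_nonneg_left hI hP0
      _ ≤ (gaussianReal 0 1).real (D x) * W := mul_le_mul_of_nonneg_right hlo hW0
      _ = W * (gaussianReal 0 1).real (D x) := mul_comm _ _
  · rw [not_nonempty_iff_eq_empty] at hne
    rw [hne]
    simp only [Measure.restrict_empty, integral_zero_measure, mul_zero]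
    exact mul_nonneg hW0 measureReal_nonneg

/-- the layers are disjoint from each other and from the level set, and lie in the next level set -/
lemma sum_layers_le {ι : Type*} [Fintype ι] (v : ι → E) {t T : ℝ} (htT : t < T) :
    (stdGaussian E).real {x | ∀ l, ⟪v l, x⟫ ≤ t} +
      ∑ j, (stdGaussian E).real {x | t < ⟪v j, x⟫ ∧ ⟪v j, x⟫ ≤ T ∧ ∀ l, l ≠ j → ⟪v l, x⟫ ≤ t} ≤
    (stdGaussian E).real {x | ∀ l, ⟪v l, x⟫ ≤ T} := by
  classical
  set K : Set E := {x | ∀ l, ⟪v l, x⟫ ≤ t} with hK
  set K' : Set E := {x | ∀ l, ⟪v l, x⟫ ≤ T} with hK'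
  set S : ι → Set E := fun j => {x | t < ⟪v j, x⟫ ∧ ⟪v j, x⟫ ≤ T ∧ ∀ l, l ≠ j → ⟪v l, x⟫ ≤ t} with hS
  have hmK : MeasurableSet K := measurableSet_K v t
  have hmK' : MeasurableSet K' := measurableSet_K v T
  have hmS : ∀ j, MeasurableSet (S j) := fun j => measurableSet_layer v j
  have e1 : (stdGaussian E).real K = ∫ x, K.indicator (fun _ => (1 : ℝ)) x ∂(stdGaussian E) := by
    rw [integral_indicator hmK]; simp
  have e2 : (stdGaussian E).real K' = ∫ x, K'.indicator (fun _ => (1 : ℝ)) x ∂(stdGaussian E) := by
    rw [integral_indicator hmK']; simp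
  have e3 : ∀ j, (stdGaussian E).real (S j) =
      ∫ x, (S j).indicator (fun _ => (1 : ℝ)) x ∂(stdGaussian E) := by
    intro j
    rw [integral_indicator (hmS j)]; simp
  have iK : Integrable (K.indicator (fun _ => (1 : ℝ))) (stdGaussian E) :=
    (integrable_const (1 : ℝ)).indicator hmK
  have iK' : Integrable (K'.indicator (fun _ => (1 : ℝ))) (stdGaussian E) :=
    (integrable_const (1 : ℝ)).indicator hmK'
  have iS : ∀ j, Integrable ((S j).indicator (fun _ => (1 : ℝ))) (stdGaussian E) :=
    fun j => (integrable_const (1 : ℝ)).indicator (hmS j)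
  change (stdGaussian E).real K + ∑ j, (stdGaussian E).real (S j) ≤ (stdGaussian E).real K'
  rw [e1, e2]
  simp_rw [e3]
  rw [← integral_finsetSum _ fun j _ => iS j, ← integral_add iK (integrable_finsetSum _ fun j _ => iS j)]
  apply integral_mono (iK.add (integrable_finsetSum _ fun j _ => iS j)) iK'
  intro x
  change K.indicator (fun _ => (1 : ℝ)) x + ∑ i, (S i).indicator (fun _ => (1 : ℝ)) x ≤ K'.indicator (fun _ => (1 : ℝ)) x
  by_cases hx : x ∈ K
  · have hxK' : x ∈ K' := fun l => (hx l).trans htT.le
    rw [indicator_of_mem hx, indicator_of_mem hxK']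
    have : ∑ j, (S j).indicator (fun _ => (1 : ℝ)) x = 0 := by
      apply Finset.sum_eq_zero
      intro j _
      apply indicator_of_notMem
      intro hj
      exact absurd hj.1 (not_lt.2 (hx j))
    rw [this]
    norm_num
  · rw [indicator_of_notMem hx, zero_add]
    by_cases hex : ∃ j, x ∈ S j
    · obtain ⟨j, hj⟩ := hex
      have hxK' : x ∈ K' := by
        intro l
        by_cases hl : l = j
        · rw [hl]; exact hj.2.1
        · exact (hj.2.2 l hl).trans htT.le
      have : ∑ i, (S i).indicator (fun _ => (1 : ℝ)) x = 1 := by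
        rw [Finset.sum_eq_single j]
        · exact indicator_of_mem hj _
        · intro b _ hb
          apply indicator_of_notMem
          intro hbS
          exact absurd hbS.1 (not_lt.2 (hj.2.2 b hb))
        · intro hc
          exact absurd (Finset.mem_univ j) hc
      rw [this, indicator_of_mem hxK']
    · push Not at hex
      have : ∑ i, (S i).indicator (fun _ => (1 : ℝ)) x = 0 := by
        apply Finset.sum_eq_zero
        intro j _
        exact indicator_of_notMem (hex j) _
      rw [this]
      exact indicator_nonneg (fun _ _ => zero_le_one) _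

/-- Multiplicative growth of the Gaussian measure of the level sets of the maximum of negatively
correlated functionals that are balanced by weights at least one. -/
theorem growth_chord {ι : Type*} [Fintype ι] [Nonempty ι] (v : ι → E) (w : ι → ℝ)
    (hw : ∀ j, 1 ≤ w j) (hneg : ∀ j l, j ≠ l → ⟪v j, v l⟫ ≤ 0)
    (hbal : ∑ j, w j • v j = 0) (hv : ∀ j, v j ≠ 0) {t T : ℝ} (ht : 0 < t) (htT : t < T) :
    (stdGaussian E).real {x | ∀ l, ⟪v l, x⟫ ≤ t} *
        (1 + (T - t) * (∑ j, Real.exp (-T ^ 2 / (4 * ‖v j‖ ^ 2))) ^ 2 / (2 * (∑ j, w j) * t)) ≤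
      (stdGaussian E).real {x | ∀ l, ⟪v l, x⟫ ≤ T} := by
  classical
  set K : Set E := {x | ∀ l, ⟪v l, x⟫ ≤ t} with hK
  set f : ℝ := (stdGaussian E).real K with hf
  have hmK : MeasurableSet K := measurableSet_K v t
  set S : ι → Set E := fun j => {x | t < ⟪v j, x⟫ ∧ ⟪v j, x⟫ ≤ T ∧ ∀ l, l ≠ j → ⟪v l, x⟫ ≤ t} with hS
  set e : ι → ℝ := fun j => Real.exp (-T ^ 2 / (4 * ‖v j‖ ^ 2)) with he
  have he0 : ∀ j, 0 < e j := fun j => Real.exp_pos _
  set B : ℝ := ∑ j, e j with hB
  have hB0 : 0 < B := Finset.sum_pos (fun j _ => he0 j) Finset.univ_nonempty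
  set k : ℝ := ∑ j, w j with hk
  have hk0 : 0 < k := Finset.sum_pos (fun j _ => by linarith [hw j]) Finset.univ_nonempty
  have hD : 0 < T - t := by linarith
  set lam : ℝ := 2 * t * k / B with hlam
  have hlam0 : 0 < lam := by positivity
  set C : ℝ := 2 * (T - t) / lam ^ 2 with hC
  have hC0 : 0 < C := by positivity
  set s : ι → ℝ := fun j => ‖v j‖ with hs
  have hs0 : ∀ j, 0 < s j := fun j => norm_pos_iff.2 (hv j)
  set u : ι → E := fun j => (s j)⁻¹ • v j with hu
  set del : ι → ℝ := fun j => lam * e j / (w j * s j) with hdel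
  have hw0 : ∀ j, 0 < w j := fun j => by linarith [hw j]
  have hdel0 : ∀ j, 0 < del j := fun j => by
    have := he0 j
    have := hw0 j
    have := hs0 j
    positivity
  set L : ι → ℝ := fun j => t / s j - del j with hL
  set A : ι → ℝ := fun j => ∫ y in K, (⟪u j, y⟫ - L j) ∂(stdGaussian E) with hA
  -- the inequality for one index
  have hone : ∀ j, C * w j * s j * A j ≤ (stdGaussian E).real (S j) := by
    intro j
    have hch := chord_moment v j (fun l hl => hneg l j hl) (hv j) (l := L j) ht htT (by
      have := hdel0 j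
      simp only [hL]
      change t / s j - del j ≤ t / s j
      linarith)
    change ((T - t) / s j * ph (T / s j)) * A j ≤
      (ph 0 * (t / s j - L j) ^ 2 / 2) * (stdGaussian E).real (S j) at hch
    have hS0 : 0 ≤ (stdGaussian E).real (S j) := measureReal_nonneg
    by_cases hAj : A j ≤ 0
    · have : C * w j * s j * A j ≤ 0 := by
        apply mul_nonpos_of_nonneg_of_nonpos _ hAj
        have := hw0 j
        have := hs0 j
        positivity
      linarith
    · push Not at hAj
      have hsj := hs0 j
      have hwj := hw0 j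
      have hp : ph (T / s j) = ph 0 * (e j) ^ 2 := by
        rw [ph_div_eq]
        congr 1
        change _ = (Real.exp (-T ^ 2 / (4 * (s j) ^ 2))) ^ 2
        rw [← Real.exp_nat_mul]
        congr 1
        push_cast
        field_simp
        ring
      have h1 : t / s j - L j = del j := by
        simp only [hL]
        ring
      rw [h1, hp] at hch
      have hph := ph_pos 0
      have hej := he0 j
      -- cancel the common factor
      have hdl : del j ^ 2 = lam ^ 2 * e j ^ 2 / (w j ^ 2 * s j ^ 2) := by
        simp only [hdel]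
        field_simp
      rw [hdl] at hch
      have h2 : (T - t) * A j * (2 * w j ^ 2 * s j) ≤ lam ^ 2 * (stdGaussian E).real (S j) := by
        have h3 : (ph 0 * e j ^ 2 / (2 * w j ^ 2 * s j ^ 2)) *
            ((T - t) * A j * (2 * w j ^ 2 * s j)) ≤
            (ph 0 * e j ^ 2 / (2 * w j ^ 2 * s j ^ 2)) * (lam ^ 2 * (stdGaussian E).real (S j)) := by
          have e5 : (ph 0 * e j ^ 2 / (2 * w j ^ 2 * s j ^ 2)) *
              ((T - t) * A j * (2 * w j ^ 2 * s j)) =
              (T - t) / s j * (ph 0 * e j ^ 2) * A j := by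
            field_simp
          have e6 : (ph 0 * e j ^ 2 / (2 * w j ^ 2 * s j ^ 2)) *
              (lam ^ 2 * (stdGaussian E).real (S j)) =
              ph 0 * (lam ^ 2 * e j ^ 2 / (w j ^ 2 * s j ^ 2)) / 2 * (stdGaussian E).real (S j) := by
            field_simp
          rw [e5, e6]
          exact hch
        exact le_of_mul_le_mul_left h3 (by positivity)
      have h3 : C * w j * s j * A j ≤ C * (w j ^ 2 * s j * A j) := by
        have h4 : w j ≤ w j ^ 2 := by nlinarith [hw j]
        have h5 : 0 ≤ s j * A j := by positivity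
        have h6 : w j * (s j * A j) ≤ w j ^ 2 * (s j * A j) :=
          mul_le_mul_of_nonneg_right h4 h5
        have h7 : C * (w j * (s j * A j)) ≤ C * (w j ^ 2 * (s j * A j)) :=
          mul_le_mul_of_nonneg_left h6 hC0.le
        calc C * w j * s j * A j = C * (w j * (s j * A j)) := by ring
          _ ≤ C * (w j ^ 2 * (s j * A j)) := h7
          _ = C * (w j ^ 2 * s j * A j) := by ring
      have h4 : C * (w j ^ 2 * s j * A j) ≤ (stdGaussian E).real (S j) := by
        simp only [hC]
        rw [div_mul_eq_mul_div, div_le_iff₀ (by positivity)]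
        nlinarith [h2]
      linarith
  -- the sum of the first moments vanishes
  have hint : ∀ j, IntegrableOn (fun y : E => ⟪u j, y⟫) K (stdGaussian E) :=
    fun j => (integrable_inner_std (u j)).integrableOn
  have hAval : ∀ j, A j = (∫ y in K, ⟪u j, y⟫ ∂(stdGaussian E)) - L j * f := by
    intro j
    simp only [hA]
    rw [integral_sub (hint j) (integrableOn_const (by simp))]
    simp [hf, mul_comm]
  have hsum0 : ∑ j, w j * s j * ∫ y in K, ⟪u j, y⟫ ∂(stdGaussian E) = 0 := by
    have h1 : ∀ j, w j * s j * ∫ y in K, ⟪u j, y⟫ ∂(stdGaussian E) =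
        ∫ y in K, w j * ⟪v j, y⟫ ∂(stdGaussian E) := by
      intro j
      rw [← integral_const_mul]
      apply integral_congr_ae
      filter_upwards with y
      simp only [hu, inner_smul_left]
      have := hs0 j
      simp only [conj_trivial]
      field_simp
    simp_rw [h1]
    rw [← integral_finsetSum]
    · have h2 : ∀ y, ∑ j, w j * ⟪v j, y⟫ = 0 := by
        intro y
        have := congrArg (fun z => ⟪z, y⟫) hbal
        simp only [sum_inner, inner_smul_left, inner_zero_left] at this
        simpa using this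
      simp_rw [h2]
      simp
    · intro j _
      exact (integrable_inner_std (v j)).integrableOn.const_mul _
  have hsumL : ∑ j, w j * s j * L j = t * k - lam * B := by
    have h1 : ∀ j, w j * s j * L j = t * w j - lam * e j := by
      intro j
      simp only [hL, hdel]
      have := hs0 j
      have := hw0 j
      field_simp
    simp_rw [h1]
    rw [Finset.sum_sub_distrib, ← Finset.mul_sum, ← Finset.mul_sum]
  have hsumA : ∑ j, w j * s j * A j = f * (lam * B - t * k) := by
    simp_rw [hAval, mul_sub]
    rw [Finset.sum_sub_distrib, hsum0]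
    have : ∑ j, w j * s j * (L j * f) = (∑ j, w j * s j * L j) * f := by
      rw [Finset.sum_mul]
      apply Finset.sum_congr rfl
      intro j _
      ring
    rw [this, hsumL]
    ring
  have hlay : C * (f * (lam * B - t * k)) ≤ ∑ j, (stdGaussian E).real (S j) := by
    rw [← hsumA, Finset.mul_sum]
    apply Finset.sum_le_sum
    intro j _
    have := hone j
    calc C * (w j * s j * A j) = C * w j * s j * A j := by ring
      _ ≤ _ := this
  have hmono := sum_layers_le v htT
  have hval : C * (lam * B - t * k) = (T - t) * B ^ 2 / (2 * k * t) := by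
    simp only [hC, hlam]
    field_simp
    ring
  have hfinal : f * (1 + (T - t) * B ^ 2 / (2 * k * t)) = f + C * (f * (lam * B - t * k)) := by
    rw [← hval]
    ring
  rw [hfinal]
  linarith

end Vale.Agent.P226h6
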