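import Vale.Agent.P226h6.TU
import Vale.Agent.P226h6.Tables

open MeasureTheory ProbabilityTheory Real Set Filter Topology
open scoped RealInnerProductSpace ENNReal NNReal

namespace Vale.Agent.P226h6

open Vale.Agent.P226h14

/-- numerator of the continued fraction of order sixteen -/
noncomputable def pR (u : ℝ) : ℝ :=
  u ^ 15 + 119 * u ^ 13 + 5343 * u ^ 11 + 115005 * u ^ 9 + 1245915 * u ^ 7 + 6506325 * u ^ 5 +
    14073885 * u ^ 3 + 8294895 * u

/-- denominator of the continued fraction of order sixteen -/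
noncomputable def dR (u : ℝ) : ℝ :=
  u ^ 16 + 120 * u ^ 14 + 5460 * u ^ 12 + 120120 * u ^ 10 + 1351350 * u ^ 8 + 7567560 * u ^ 6 +
    18918900 * u ^ 4 + 16216200 * u ^ 2 + 2027025

/-- the derivative of the numerator -/
noncomputable def pR' (u : ℝ) : ℝ :=
  15 * u ^ 14 + 119 * 13 * u ^ 12 + 5343 * 11 * u ^ 10 + 115005 * 9 * u ^ 8 + 1245915 * 7 * u ^ 6 +
    6506325 * 5 * u ^ 4 + 14073885 * 3 * u ^ 2 + 8294895

/-- the derivative of the denominator -/
noncomputable def dR' (u : ℝ) : ℝ :=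
  16 * u ^ 15 + 120 * 14 * u ^ 13 + 5460 * 12 * u ^ 11 + 120120 * 10 * u ^ 9 + 1351350 * 8 * u ^ 7 +
    7567560 * 6 * u ^ 5 + 18918900 * 4 * u ^ 3 + 16216200 * 2 * u

lemma mono_deriv (c : ℝ) (n : ℕ) (u : ℝ) :
    HasDerivAt (fun x : ℝ => c * x ^ (n + 1)) (c * ((n + 1 : ℕ) * u ^ n)) u := by
  have h := (hasDerivAt_pow (n + 1) u).const_mul c
  simpa using h

lemma hasDerivAt_pR (u : ℝ) : HasDerivAt pR (pR' u) u := by
  have h := ((((((((mono_deriv 1 14 u).fun_add (mono_deriv 119 12 u)).fun_add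
    (mono_deriv 5343 10 u)).fun_add (mono_deriv 115005 8 u)).fun_add
    (mono_deriv 1245915 6 u)).fun_add (mono_deriv 6506325 4 u)).fun_add
    (mono_deriv 14073885 2 u)).fun_add (mono_deriv 8294895 0 u))
  have e : pR = fun x : ℝ => 1 * x ^ (14 + 1) + 119 * x ^ (12 + 1) + 5343 * x ^ (10 + 1) +
      115005 * x ^ (8 + 1) + 1245915 * x ^ (6 + 1) + 6506325 * x ^ (4 + 1) +
      14073885 * x ^ (2 + 1) + 8294895 * x ^ (0 + 1) := by
    ext x
    simp only [pR]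
    ring
  rw [e]
  refine h.congr_deriv ?_
  simp only [pR']
  push_cast
  ring

lemma hasDerivAt_dR (u : ℝ) : HasDerivAt dR (dR' u) u := by
  have h := ((((((((mono_deriv 1 15 u).fun_add (mono_deriv 120 13 u)).fun_add
    (mono_deriv 5460 11 u)).fun_add (mono_deriv 120120 9 u)).fun_add
    (mono_deriv 1351350 7 u)).fun_add (mono_deriv 7567560 5 u)).fun_add
    (mono_deriv 18918900 3 u)).fun_add (mono_deriv 16216200 1 u)).add_const (2027025 : ℝ)
  have e : dR = fun x : ℝ => 1 * x ^ (15 + 1) + 120 * x ^ (13 + 1) + 5460 * x ^ (11 + 1) +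
      120120 * x ^ (9 + 1) + 1351350 * x ^ (7 + 1) + 7567560 * x ^ (5 + 1) +
      18918900 * x ^ (3 + 1) + 16216200 * x ^ (1 + 1) + 2027025 := by
    ext x
    simp only [dR]
    ring
  rw [e]
  refine h.congr_deriv ?_
  simp only [dR']
  push_cast
  ring

lemma dR_pos {u : ℝ} (_hu : 0 ≤ u) : 0 < dR u := by
  unfold dR
  positivity

lemma dR_sub (u : ℝ) : dR u - u * pR u = u ^ 14 + 117 * u ^ 12 + 5115 * u ^ 10 + 105435 * u ^ 8 +
    1061235 * u ^ 6 + 4845015 * u ^ 4 + 7921305 * u ^ 2 + 2027025 := by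
  unfold dR pR
  ring

lemma mills16 {u : ℝ} (hu : 0 ≤ u) : ph u * pR u ≤ dR u * Qf u := by
  apply mills_cf pR dR pR' dR' 20922789888000 (by norm_num) hasDerivAt_pR hasDerivAt_dR
    (fun w hw => dR_pos hw) _ _ _ hu
  · intro w hw
    unfold pR
    positivity
  · intro w _
    have h := dR_sub w
    have h2 : 0 ≤ w ^ 14 + 117 * w ^ 12 + 5115 * w ^ 10 + 105435 * w ^ 8 +
      1061235 * w ^ 6 + 4845015 * w ^ 4 + 7921305 * w ^ 2 + 2027025 := by positivity
    linarith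
  · intro w
    unfold pR dR pR' dR'
    ring

lemma Tf_le_rho {u : ℝ} (hu : 0 ≤ u) : Tf u * dR u ≤ ph u * (dR u - u * pR u) := by
  have h := mills16 hu
  unfold Tf
  have h2 : u * (ph u * pR u) ≤ u * (dR u * Qf u) := mul_le_mul_of_nonneg_left h hu
  nlinarith

/-! ### integer data -/

/-- the scale of the tables -/
def D : ℕ := 10 ^ 12

/-- the first grid index -/
def i0 : ℕ := 16

/-- the exponent for the exponentials -/
def M : ℕ := 8192

/-- table value -/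
def Ehi (k : ℕ) : ℕ := EhiT.getD k 0

/-- table value -/
def Elo (k : ℕ) : ℕ := EloT.getD k 0

/-- table value -/
def Rho (k : ℕ) : ℕ := RhoT.getD k 0

/-- homogeneous denominator at `i / 64` -/
def dI (i : ℕ) : ℕ :=
  2027025 * 64 ^ 16 + 16216200 * i ^ 2 * 64 ^ 14 + 18918900 * i ^ 4 * 64 ^ 12 +
    7567560 * i ^ 6 * 64 ^ 10 + 1351350 * i ^ 8 * 64 ^ 8 + 120120 * i ^ 10 * 64 ^ 6 +
    5460 * i ^ 12 * 64 ^ 4 + 120 * i ^ 14 * 64 ^ 2 + i ^ 16

/-- homogeneous numerator of the ratio at `i / 64` -/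
def rI (i : ℕ) : ℕ :=
  2027025 * 64 ^ 16 + 7921305 * i ^ 2 * 64 ^ 14 + 4845015 * i ^ 4 * 64 ^ 12 +
    1061235 * i ^ 6 * 64 ^ 10 + 105435 * i ^ 8 * 64 ^ 8 + 5115 * i ^ 10 * 64 ^ 6 +
    117 * i ^ 12 * 64 ^ 4 + i ^ 14 * 64 ^ 2

lemma dI_cast (i : ℕ) : (dI i : ℝ) = 64 ^ 16 * dR ((i : ℝ) / 64) := by
  unfold dI dR
  push_cast
  field_simp
  ring

lemma rI_cast (i : ℕ) : (rI i : ℝ) = 64 ^ 16 * (dR ((i : ℝ) / 64) - ((i : ℝ) / 64) * pR ((i : ℝ) / 64)) := by
  rw [dR_sub]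
  unfold rI
  push_cast
  field_simp
  ring

/-- the check of the tables at one index -/
def ChkE (k : ℕ) : Prop :=
  D ^ M * 10 ^ (10 * (i0 + k) ^ 2) ≤ Ehi k ^ M * 27182818283 ^ ((i0 + k) ^ 2) ∧
    Elo k ^ M * 27182818286 ^ ((i0 + k) ^ 2) ≤ D ^ M * 10 ^ (10 * (i0 + k) ^ 2) ∧
    rI (i0 + k) * D ≤ Rho k * dI (i0 + k)

instance (k : ℕ) : Decidable (ChkE k) := by
  unfold ChkE
  infer_instance

theorem chkE_all : ∀ k ∈ List.range 130, ChkE k := by decide +kernel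

/-- the value of the piecewise bound, scaled by `D ^ 2` -/
def JbI (C k : ℕ) : ℤ :=
  if C ≤ Rho k then (Ehi k : ℤ) * ((Rho k : ℤ) - C) else (Elo (k + 1) : ℤ) * ((Rho k : ℤ) - C)

/-- numerator of the growth term -/
def Gnum (N0 k : ℕ) : ℕ := Elo (k + 1) * (M * (N0 - 1) - (i0 + k + 1) ^ 2) ^ 2

/-- denominator of the growth term -/
def Gden (N0 k : ℕ) : ℕ := (i0 + k) * D * M * M * 2 * (N0 + 1)

/-- the check of the potential at one index -/
def ChkS (N0 C : ℕ) (P : List ℤ) (k : ℕ) : Prop :=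
  (i0 + k + 1) ^ 2 ≤ M * (N0 - 1) ∧ JbI C k ≤ P.getD k 0 ∧
    (P.getD k 0 - JbI C k) * (Gden N0 k : ℤ) ≤
      (P.getD (k + 1) 0 - JbI C k) * ((Gden N0 k : ℤ) + Gnum N0 k)

instance (N0 C : ℕ) (P : List ℤ) (k : ℕ) : Decidable (ChkS N0 C P k) := by
  unfold ChkS
  infer_instance

/-- the exponential on the grid, upper bound -/
lemma exp_hi {n Eh : ℕ} (h : D ^ M * 10 ^ (10 * n ^ 2) ≤ Eh ^ M * 27182818283 ^ (n ^ 2)) :
    Real.exp (-((n : ℝ) / 64) ^ 2 / 2) ≤ (Eh : ℝ) / D := by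
  have hM : M ≠ 0 := by norm_num [M]
  have hD : (0 : ℝ) < (D : ℝ) := by norm_num [D]
  have hpow : Real.exp (-((n : ℝ) / 64) ^ 2 / 2) ^ M = (Real.exp 1)⁻¹ ^ (n ^ 2) := by
    rw [← Real.exp_nat_mul, ← Real.exp_neg, ← Real.exp_nat_mul]
    congr 1
    simp only [M]
    push_cast
    ring
  apply le_of_pow_le_pow_left₀ hM (by positivity)
  rw [hpow]
  have h1 : (27182818283 / 10 ^ 10 : ℝ) ≤ Real.exp 1 := by
    have := Real.exp_one_gt_d9
    norm_num at this ⊢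
    linarith
  have h2 : (Real.exp 1)⁻¹ ≤ (10 ^ 10 / 27182818283 : ℝ) := by
    rw [inv_le_comm₀ (Real.exp_pos 1) (by norm_num)]
    have e : (10 ^ 10 / 27182818283 : ℝ)⁻¹ = 27182818283 / 10 ^ 10 := by norm_num
    rw [e]
    exact h1
  have h3 : (Real.exp 1)⁻¹ ^ (n ^ 2) ≤ (10 ^ 10 / 27182818283 : ℝ) ^ (n ^ 2) :=
    pow_le_pow_left₀ (by positivity) h2 _
  refine h3.trans ?_
  have h4 : ((D : ℝ) ^ M * 10 ^ (10 * n ^ 2)) ≤ (Eh : ℝ) ^ M * 27182818283 ^ (n ^ 2) := by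
    exact_mod_cast h
  have hDM : (0 : ℝ) < (D : ℝ) ^ M := pow_pos hD M
  have hAn : (0 : ℝ) < 27182818283 ^ (n ^ 2) := pow_pos (by norm_num) _
  rw [div_pow, div_pow, div_le_div_iff₀ hAn hDM]
  have e : ((10 : ℝ) ^ 10) ^ (n ^ 2) = 10 ^ (10 * n ^ 2) := by rw [pow_mul]
  rw [e]
  linarith

/-- the exponential on the grid, lower bound -/
lemma exp_lo {n El : ℕ} (h : El ^ M * 27182818286 ^ (n ^ 2) ≤ D ^ M * 10 ^ (10 * n ^ 2)) :
    (El : ℝ) / D ≤ Real.exp (-((n : ℝ) / 64) ^ 2 / 2) := by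
  have hM : M ≠ 0 := by norm_num [M]
  have hD : (0 : ℝ) < (D : ℝ) := by norm_num [D]
  have hpow : Real.exp (-((n : ℝ) / 64) ^ 2 / 2) ^ M = (Real.exp 1)⁻¹ ^ (n ^ 2) := by
    rw [← Real.exp_nat_mul, ← Real.exp_neg, ← Real.exp_nat_mul]
    congr 1
    simp only [M]
    push_cast
    ring
  apply le_of_pow_le_pow_left₀ hM (Real.exp_pos _).le
  rw [hpow]
  have h1 : Real.exp 1 ≤ (27182818286 / 10 ^ 10 : ℝ) := by
    have := Real.exp_one_lt_d9
    norm_num at this ⊢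
    linarith
  have h2 : (10 ^ 10 / 27182818286 : ℝ) ≤ (Real.exp 1)⁻¹ := by
    rw [le_inv_comm₀ (by norm_num) (Real.exp_pos 1)]
    have e : (10 ^ 10 / 27182818286 : ℝ)⁻¹ = 27182818286 / 10 ^ 10 := by norm_num
    rw [e]
    exact h1
  have h3 : (10 ^ 10 / 27182818286 : ℝ) ^ (n ^ 2) ≤ (Real.exp 1)⁻¹ ^ (n ^ 2) :=
    pow_le_pow_left₀ (by positivity) h2 _
  refine le_trans ?_ h3
  have h4 : (El : ℝ) ^ M * 27182818286 ^ (n ^ 2) ≤ ((D : ℝ) ^ M * 10 ^ (10 * n ^ 2)) := by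
    exact_mod_cast h
  have hDM : (0 : ℝ) < (D : ℝ) ^ M := pow_pos hD M
  have hAn : (0 : ℝ) < 27182818286 ^ (n ^ 2) := pow_pos (by norm_num) _
  rw [div_pow, div_pow, div_le_div_iff₀ hDM hAn]
  have e : ((10 : ℝ) ^ 10) ^ (n ^ 2) = 10 ^ (10 * n ^ 2) := by rw [pow_mul]
  rw [e]
  linarith

lemma ph_eq (u : ℝ) : ph u = ph 0 * Real.exp (-u ^ 2 / 2) := by
  unfold ph
  simp

/-- monotonicity of the growth constant in the number of functionals -/
lemma growth_mono {N0 N b : ℝ} (hN0 : 0 ≤ N0) (hN : N0 ≤ N) (hb : 0 ≤ b) (hL : 0 ≤ N0 - 1 - b) :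
    (N0 - 1 - b) ^ 2 / (N0 + 1) ≤ (N - 1 - b) ^ 2 / (N + 1) := by
  rw [div_le_div_iff₀ (by linarith) (by linarith)]
  set L : ℝ := N0 - 1 - b with hLdef
  set x : ℝ := N - N0 with hx
  have hx0 : 0 ≤ x := by linarith
  have e : N - 1 - b = L + x := by rw [hLdef, hx]; ring
  have e2 : N + 1 = (N0 + 1) + x := by rw [hx]; ring
  rw [e, e2]
  have hLle : L ≤ N0 + 1 := by linarith
  have h1 : 0 ≤ x * (2 * L * (N0 + 1) + x * (N0 + 1) - L ^ 2) := by
    apply mul_nonneg hx0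
    have h2 : 0 ≤ L * (N0 + 1) := by positivity
    have h3 : L * L ≤ L * (N0 + 1) := mul_le_mul_of_nonneg_left hLle hL
    have h4 : 0 ≤ x * (N0 + 1) := by positivity
    nlinarith
  nlinarith

section main

variable {E : Type*} [NormedAddCommGroup E] [InnerProductSpace ℝ E] [FiniteDimensional ℝ E]
  [MeasurableSpace E] [BorelSpace E]
variable {ι : Type*} [Fintype ι] [Nonempty ι]

/-- The estimate of the integrated tail of the maximum, from the integer tables. -/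
theorem key_grid (v : ι → E) (a : ι → ℝ)
    (ha0 : ∀ j, 0 ≤ a j) (ha1 : ∀ j, a j < 1) (hsum : ∑ j, a j = 1)
    (hneg : ∀ j l, j ≠ l → ⟪v j, v l⟫ ≤ 0)
    (hbal : ∑ j, (1 + a j) • v j = 0)
    (hvar : ∀ j, 1 - a j ≤ (1 + a j) * ‖v j‖ ^ 2)
    (N0 C m : ℕ) (P : List ℤ) (hN01 : 1 ≤ N0) (hN : N0 ≤ Fintype.card ι) (hCD : C ≤ D)
    (hE : ∀ k, k ≤ m + 1 → ChkE k) (hS : ∀ k, k < m → ChkS N0 C P k)
    (hP0 : ((D : ℤ) - C) * D ≤ P.getD 0 0) (hlast : P.getD m 0 ≤ 0) (hρm : Rho m ≤ C) :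
    ∫ x, (Tf (wid v x) - ((C : ℝ) / D) * ph (wid v x)) ∂(stdGaussian E) ≤ 0 := by
  have hD : (0 : ℝ) < (D : ℝ) := by norm_num [D]
  have hCD' : (C : ℝ) ≤ D := by exact_mod_cast hCD
  have hDD : (D : ℝ) ^ 2 ≠ 0 := by positivity
  set t : ℕ → ℝ := fun k => ((i0 + k : ℕ) : ℝ) / 64 with ht
  set ρ : ℕ → ℝ := fun k => (Rho k : ℝ) / D with hρ
  set Jb : ℕ → ℝ := fun k => (JbI C k : ℝ) / D ^ 2 with hJb
  set Pr : ℕ → ℝ := fun k => (P.getD k 0 : ℝ) / D ^ 2 with hPr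
  set g : ℕ → ℝ := fun k => 1 + (Gnum N0 k : ℝ) / Gden N0 k with hg
  have hGden : ∀ k, (0 : ℝ) < (Gden N0 k : ℝ) := by
    intro k
    have : 0 < Gden N0 k := by
      unfold Gden i0 D M
      positivity
    exact_mod_cast this
  have hGnum : ∀ k, (0 : ℝ) ≤ (Gnum N0 k : ℝ) := fun k => Nat.cast_nonneg _
  have htpos : ∀ k, 0 < t k := by
    intro k
    simp only [ht, i0]
    positivity
  have hexp_t : ∀ k, Real.exp (-(t k) ^ 2 / 2) = Real.exp (-(((i0 + k : ℕ) : ℝ) / 64) ^ 2 / 2) :=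
    fun k => rfl
  apply key_TU v a ha0 ha1 hsum hneg hbal hvar m t ρ Jb Pr g ((C : ℝ) / D) (by positivity)
    (by rw [div_le_one hD]; exact hCD') (htpos 0)
  · -- increasing
    intro i _
    simp only [ht]
    apply div_lt_div_of_pos_right _ (by norm_num)
    exact_mod_cast (by omega : i0 + i < i0 + (i + 1))
  · -- the ratio bound
    intro k hk
    have hchk := (hE k (by omega)).2.2
    have h1 : 0 ≤ t k := (htpos k).le
    have h2 := Tf_le_rho h1
    have h3 : ((rI (i0 + k) : ℝ)) * D ≤ (Rho k : ℝ) * dI (i0 + k) := by exact_mod_cast hchk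
    rw [rI_cast, dI_cast] at h3
    have hdpos := dR_pos h1
    change Tf (t k) ≤ ph (t k) * ((Rho k : ℝ) / D)
    have h4 : (dR (t k) - t k * pR (t k)) * D ≤ (Rho k : ℝ) * dR (t k) := by
      have e1 : (64 : ℝ) ^ 16 * (dR (t k) - t k * pR (t k)) * D =
          64 ^ 16 * ((dR (t k) - t k * pR (t k)) * D) := by ring
      have e2 : (Rho k : ℝ) * (64 ^ 16 * dR (t k)) = 64 ^ 16 * ((Rho k : ℝ) * dR (t k)) := by ring
      have h5 : (64 : ℝ) ^ 16 * ((dR (t k) - t k * pR (t k)) * D) ≤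
          64 ^ 16 * ((Rho k : ℝ) * dR (t k)) := by
        rw [← e1, ← e2]
        exact h3
      exact le_of_mul_le_mul_left h5 (by norm_num)
    have hph := ph_pos (t k)
    have h6 : Tf (t k) * D * dR (t k) ≤ (ph (t k) * (Rho k : ℝ)) * dR (t k) := by
      calc Tf (t k) * D * dR (t k) = (Tf (t k) * dR (t k)) * D := by ring
        _ ≤ (ph (t k) * (dR (t k) - t k * pR (t k))) * D :=
            mul_le_mul_of_nonneg_right h2 hD.le
        _ = ph (t k) * ((dR (t k) - t k * pR (t k)) * D) := by ring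
        _ ≤ ph (t k) * ((Rho k : ℝ) * dR (t k)) := mul_le_mul_of_nonneg_left h4 hph.le
        _ = _ := by ring
    have h7 := le_of_mul_le_mul_right h6 hdpos
    rw [← mul_div_assoc, le_div_iff₀ hD]
    exact h7
  · -- the piecewise bound
    intro k hk u hu1 hu2
    have hu0 : 0 < u := (htpos k).trans hu1
    rw [ph_eq u]
    have hph0 := ph_pos 0
    have hD2 : (0 : ℝ) < (D : ℝ) ^ 2 := by positivity
    change ph 0 * Real.exp (-u ^ 2 / 2) * ((Rho k : ℝ) / D - (C : ℝ) / D) ≤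
      ph 0 * ((JbI C k : ℝ) / D ^ 2)
    rw [mul_assoc]
    apply mul_le_mul_of_nonneg_left _ hph0.le
    unfold JbI
    by_cases hc : C ≤ Rho k
    · rw [if_pos hc]
      have h1 : Real.exp (-u ^ 2 / 2) ≤ Real.exp (-(t k) ^ 2 / 2) := by
        apply Real.exp_le_exp.2
        have := htpos k
        nlinarith
      have h2 : Real.exp (-(t k) ^ 2 / 2) ≤ (Ehi k : ℝ) / D := exp_hi (hE k (by omega)).1
      have h3 : (0 : ℝ) ≤ (Rho k : ℝ) / D - (C : ℝ) / D := by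
        rw [← sub_div]
        apply div_nonneg _ hD.le
        have : (C : ℝ) ≤ Rho k := by exact_mod_cast hc
        linarith
      calc Real.exp (-u ^ 2 / 2) * ((Rho k : ℝ) / D - (C : ℝ) / D)
          ≤ ((Ehi k : ℝ) / D) * ((Rho k : ℝ) / D - (C : ℝ) / D) :=
            mul_le_mul_of_nonneg_right (h1.trans h2) h3
        _ = _ := by
            push_cast
            field_simp
    · rw [if_neg hc]
      have h1 : Real.exp (-(t (k + 1)) ^ 2 / 2) ≤ Real.exp (-u ^ 2 / 2) := by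
        apply Real.exp_le_exp.2
        nlinarith
      have h2 : (Elo (k + 1) : ℝ) / D ≤ Real.exp (-(t (k + 1)) ^ 2 / 2) :=
        exp_lo (hE (k + 1) (by omega)).2.1
      have h3 : (Rho k : ℝ) / D - (C : ℝ) / D ≤ 0 := by
        rw [← sub_div]
        apply div_nonpos_of_nonpos_of_nonneg _ hD.le
        have : (Rho k : ℝ) ≤ C := by
          have := not_le.1 hc
          exact_mod_cast this.le
        linarith
      calc Real.exp (-u ^ 2 / 2) * ((Rho k : ℝ) / D - (C : ℝ) / D)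
          ≤ ((Elo (k + 1) : ℝ) / D) * ((Rho k : ℝ) / D - (C : ℝ) / D) :=
            mul_le_mul_of_nonpos_right (h2.trans h1) h3
        _ = _ := by
            push_cast
            field_simp
  · -- the level is below the number of functionals
    intro k hk
    have h1 := (hS k hk).1
    have hN' : (N0 : ℝ) ≤ Fintype.card ι := by exact_mod_cast hN
    have h2 : (((i0 + k + 1 : ℕ) : ℝ)) ^ 2 ≤ (M : ℝ) * ((N0 : ℝ) - 1) := by
      have h3 : ((i0 + k + 1 : ℕ) : ℝ) ^ 2 ≤ (M : ℝ) * ((N0 - 1 : ℕ) : ℝ) := by exact_mod_cast h1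
      rw [Nat.cast_sub hN01] at h3
      simpa using h3
    have h3 : t (k + 1) ^ 2 / 2 ≤ (N0 : ℝ) - 1 := by
      have e : t (k + 1) ^ 2 / 2 = (((i0 + k + 1 : ℕ) : ℝ)) ^ 2 / (M : ℝ) := by
        simp only [ht, M, i0]
        push_cast
        ring
      rw [e, div_le_iff₀ (by norm_num [M])]
      linarith
    linarith
  · intro k _
    have := hGden k
    have := hGnum k
    simp only [hg]
    positivity
  · -- the growth constant
    intro k hk
    have h1 := (hS k hk).1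
    have hchk := (hE (k + 1) (by omega)).2.1
    have hexp : (Elo (k + 1) : ℝ) / D ≤ Real.exp (-(t (k + 1)) ^ 2 / 2) := exp_lo hchk
    have hN' : (N0 : ℝ) ≤ Fintype.card ι := by exact_mod_cast hN
    have hN0' : (1 : ℝ) ≤ N0 := by exact_mod_cast hN01
    set N : ℝ := (Fintype.card ι : ℝ) with hNdef
    set b : ℝ := t (k + 1) ^ 2 / 2 with hb
    have hb0 : 0 ≤ b := by positivity
    have hM0 : (M : ℝ) = 8192 := by norm_num [M]
    have h2 : (((i0 + k + 1 : ℕ) : ℝ)) ^ 2 ≤ (M : ℝ) * ((N0 : ℝ) - 1) := by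
      have h3 : ((i0 + k + 1 : ℕ) : ℝ) ^ 2 ≤ (M : ℝ) * ((N0 - 1 : ℕ) : ℝ) := by exact_mod_cast h1
      rw [Nat.cast_sub hN01] at h3
      simpa using h3
    have hbe : b = (((i0 + k + 1 : ℕ) : ℝ)) ^ 2 / (M : ℝ) := by
      simp only [hb, ht, M, i0]
      push_cast
      ring
    have hLr : 0 ≤ (N0 : ℝ) - 1 - b := by
      rw [hbe]
      have : (((i0 + k + 1 : ℕ) : ℝ)) ^ 2 / (M : ℝ) ≤ (N0 : ℝ) - 1 := by
        rw [div_le_iff₀ (by norm_num [M])]
        linarith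
      linarith
    have hmon := growth_mono (by linarith) hN' hb0 hLr
    have hLint : ((M * (N0 - 1) - (i0 + k + 1) ^ 2 : ℕ) : ℝ) = (M : ℝ) * ((N0 : ℝ) - 1 - b) := by
      rw [Nat.cast_sub h1, hbe]
      push_cast
      rw [Nat.cast_sub hN01]
      have : (M : ℝ) ≠ 0 := by norm_num [M]
      push_cast
      field_simp
    have hGn : (Gnum N0 k : ℝ) = (Elo (k + 1) : ℝ) * ((M : ℝ) * ((N0 : ℝ) - 1 - b)) ^ 2 := by
      unfold Gnum
      rw [Nat.cast_mul, Nat.cast_pow, hLint]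
    have hGd : (Gden N0 k : ℝ) = ((i0 + k : ℕ) : ℝ) * D * M * M * 2 * ((N0 : ℝ) + 1) := by
      unfold Gden
      push_cast
      ring
    have hti : (t (k + 1) - t k) / t k = 1 / ((i0 + k : ℕ) : ℝ) := by
      simp only [ht]
      have : ((i0 + k : ℕ) : ℝ) ≠ 0 := by
        simp only [i0]
        positivity
      push_cast
      push_cast at this
      field_simp
      ring
    have hik : (0 : ℝ) < ((i0 + k : ℕ) : ℝ) := by
      simp only [i0]
      positivity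
    have hEl : (0 : ℝ) ≤ (Elo (k + 1) : ℝ) := Nat.cast_nonneg _
    have hM1 : (M : ℝ) ≠ 0 := by norm_num [M]
    have hfrac : (Gnum N0 k : ℝ) / Gden N0 k =
        (1 / ((i0 + k : ℕ) : ℝ)) * (((Elo (k + 1) : ℝ) / D) *
          (((N0 : ℝ) - 1 - b) ^ 2 / ((N0 : ℝ) + 1))) / 2 := by
      rw [hGn, hGd]
      field_simp
    have hrhs : (t (k + 1) - t k) * (Real.exp (-t (k + 1) ^ 2 / 2) * (N - 1 - b) ^ 2) /
        (2 * (N + 1) * t k) =
        (1 / ((i0 + k : ℕ) : ℝ)) * (Real.exp (-t (k + 1) ^ 2 / 2) *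
          ((N - 1 - b) ^ 2 / (N + 1))) / 2 := by
      have hNp : N + 1 ≠ 0 := by
        have : 0 ≤ N := by rw [hNdef]; positivity
        linarith
      have htk := (htpos k).ne'
      rw [← hti]
      field_simp
    simp only [hg]
    apply add_le_add_right
    rw [hrhs, hfrac]
    apply div_le_div_of_nonneg_right _ (by norm_num)
    apply mul_le_mul_of_nonneg_left _ (by positivity)
    exact mul_le_mul hexp hmon (by
      apply div_nonneg (by positivity) (by linarith)) (Real.exp_pos _).le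
  · -- base
    simp only [hPr]
    have h1 : (((D : ℤ) - C) * D : ℝ) ≤ (P.getD 0 0 : ℝ) := by exact_mod_cast hP0
    rw [le_div_iff₀ (by positivity)]
    have e : (1 - (C : ℝ) / D) * (D : ℝ) ^ 2 = ((D : ℝ) - C) * D := by
      field_simp
    rw [e]
    exact h1
  · intro k hk
    have h1 := (hS k hk).2.1
    simp only [hJb, hPr]
    apply div_le_div_of_nonneg_right _ (by positivity)
    exact_mod_cast h1
  · intro k hk
    have h1 := (hS k hk).2.2
    have h2 : ((P.getD k 0 : ℝ) - JbI C k) * (Gden N0 k : ℝ) ≤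
        ((P.getD (k + 1) 0 : ℝ) - JbI C k) * ((Gden N0 k : ℝ) + Gnum N0 k) := by
      exact_mod_cast h1
    simp only [hJb, hPr, hg]
    have h3 := hGden k
    rw [← sub_div, ← sub_div, div_mul_eq_mul_div]
    apply div_le_div_of_nonneg_right _ (by positivity)
    have e : ((P.getD (k + 1) 0 : ℝ) - JbI C k) * (1 + (Gnum N0 k : ℝ) / Gden N0 k) =
        (((P.getD (k + 1) 0 : ℝ) - JbI C k) * ((Gden N0 k : ℝ) + Gnum N0 k)) / Gden N0 k := by
      field_simp
    rw [e, le_div_iff₀ h3]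
    exact h2
  · simp only [hPr]
    apply div_nonpos_of_nonpos_of_nonneg _ (by positivity)
    exact_mod_cast hlast
  · simp only [hρ]
    apply div_le_div_of_nonneg_right _ hD.le
    exact_mod_cast hρm

end main

end Vale.Agent.P226h6
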