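import Vale.Agent.P226h6.Chord

open MeasureTheory ProbabilityTheory Real Set Filter Topology
open scoped ENNReal NNReal

namespace Vale.Agent.P226h6

open Vale.Agent.P226h14

/-- the Gaussian tail -/
noncomputable def Qf (u : ℝ) : ℝ := (gaussianReal 0 1).real (Ici u)

/-- the integrated tail -/
noncomputable def Tf (u : ℝ) : ℝ := ph u - u * Qf u

lemma continuous_ph : Continuous ph := by
  unfold ph
  fun_prop

lemma Qf_eq (u : ℝ) : Qf u = ∫ r in Ioi u, ph r := by
  unfold Qf
  rw [gaussReal_eq_integral measurableSet_Ici, integral_Ici_eq_integral_Ioi]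

lemma Qf_nonneg (u : ℝ) : 0 ≤ Qf u := measureReal_nonneg

lemma Qf_le_one (u : ℝ) : Qf u ≤ 1 := by
  unfold Qf
  exact measureReal_le_one

lemma Qf_sub (u : ℝ) : Qf u = Qf 0 - ∫ r in (0 : ℝ)..u, ph r := by
  rw [Qf_eq, Qf_eq]
  have := intervalIntegral.integral_interval_add_Ioi (a := 0) (b := u) (f := ph)
    integrable_ph.integrableOn integrable_ph.integrableOn
  linarith

lemma hasDerivAt_Qf (u : ℝ) : HasDerivAt Qf (-ph u) u := by
  have h1 : HasDerivAt (fun w => ∫ r in (0 : ℝ)..w, ph r) (ph u) u :=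
    intervalIntegral.integral_hasDerivAt_right (continuous_ph.intervalIntegrable _ _)
      continuous_ph.stronglyMeasurable.stronglyMeasurableAtFilter continuous_ph.continuousAt
  have h2 := h1.const_sub (Qf 0)
  refine h2.congr_of_eventuallyEq ?_
  exact Eventually.of_forall fun w => Qf_sub w

lemma hasDerivAt_Tf (u : ℝ) : HasDerivAt Tf (-Qf u) u := by
  have h1 := (hasDerivAt_ph u).sub ((hasDerivAt_id u).mul (hasDerivAt_Qf u))
  refine h1.congr_deriv ?_
  simp

lemma continuous_Tf : Continuous Tf :=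
  continuous_iff_continuousAt.2 fun u => (hasDerivAt_Tf u).continuousAt

lemma continuous_Qf : Continuous Qf :=
  continuous_iff_continuousAt.2 fun u => (hasDerivAt_Qf u).continuousAt

lemma Tf_eq_integral (u : ℝ) : Tf u = ∫ r in Ici u, (r - u) ∂(gaussianReal 0 1) := by
  have hid : IntegrableOn (fun r : ℝ => r) (Ici u) (gaussianReal 0 1) :=
    (memLp_id_gaussianReal (μ := 0) (v := 1) 1 |>.integrable (by norm_num)).integrableOn
  have i3 : IntegrableOn (fun _ : ℝ => u) (Ici u) (gaussianReal 0 1) :=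
    integrableOn_const (by simp)
  rw [integral_sub hid i3, integral_Ici_id]
  simp [Tf, Qf]
  ring

lemma Tf_nonneg (u : ℝ) : 0 ≤ Tf u := by
  rw [Tf_eq_integral]
  apply setIntegral_nonneg measurableSet_Ici
  intro r hr
  have : u ≤ r := hr
  linarith

lemma Tf_le_ph {u : ℝ} (hu : 0 ≤ u) : Tf u ≤ ph u := by
  have : 0 ≤ u * Qf u := mul_nonneg hu (Qf_nonneg u)
  unfold Tf
  linarith

/-- the ratio of the integrated tail to the density decreases -/
lemma Tf_ratio {a u : ℝ} (hau : a ≤ u) : Tf u * ph a ≤ Tf a * ph u := by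
  set r : ℝ → ℝ := fun w => Tf w / ph w with hr
  have hd : ∀ w, HasDerivAt r ((-Qf w * ph w - Tf w * (-(w * ph w))) / ph w ^ 2) w := fun w =>
    (hasDerivAt_Tf w).div (hasDerivAt_ph w) (ph_pos w).ne'
  have hanti : Antitone r := by
    apply antitone_of_deriv_nonpos (fun w => (hd w).differentiableAt)
    intro w
    rw [(hd w).deriv]
    apply div_nonpos_of_nonpos_of_nonneg _ (by positivity)
    have hm : w * ph w ≤ (1 + w ^ 2) * Qf w := mills w
    have hp := ph_pos w
    have : -Qf w * ph w - Tf w * (-(w * ph w)) = ph w * (w * ph w - (1 + w ^ 2) * Qf w) := by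
      unfold Tf
      ring
    rw [this]
    apply mul_nonpos_of_nonneg_of_nonpos hp.le
    linarith
  have h := hanti hau
  simp only [hr] at h
  rw [div_le_div_iff₀ (ph_pos u) (ph_pos a)] at h
  exact h

lemma tendsto_Qf_atTop : Tendsto Qf atTop (𝓝 0) := by
  have h1 : ∀ᶠ w in atTop, Qf w ≤ ph w := by
    filter_upwards [eventually_ge_atTop (1 : ℝ)] with w hw
    have h2 : 0 ≤ Tf w := Tf_nonneg w
    unfold Tf at h2
    have h3 : Qf w ≤ w * Qf w := by
      have := Qf_nonneg w
      nlinarith
    linarith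
  exact squeeze_zero' (Eventually.of_forall Qf_nonneg) h1 tendsto_ph_atTop

/-- Continued fraction lower bounds for the Gaussian tail. -/
lemma mills_cf (p d p' d' : ℝ → ℝ) (K : ℝ) (hK : 0 ≤ K)
    (hp : ∀ u, HasDerivAt p (p' u) u) (hd : ∀ u, HasDerivAt d (d' u) u)
    (hd0 : ∀ u, 0 ≤ u → 0 < d u) (hp0 : ∀ u, 0 ≤ u → 0 ≤ p u) (hpd : ∀ u, 0 ≤ u → u * p u ≤ d u)
    (hid : ∀ u, u * p u * d u - d u ^ 2 - p' u * d u + p u * d' u = -K)
    {u : ℝ} (hu : 0 ≤ u) : ph u * p u ≤ d u * Qf u := by
  set c : ℝ → ℝ := fun w => p w / d w with hc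
  set G : ℝ → ℝ := fun w => Qf w - ph w * c w with hG
  have hcd : ∀ w, 0 ≤ w → HasDerivAt c ((p' w * d w - p w * d' w) / d w ^ 2) w := fun w hw =>
    (hp w).div (hd w) (hd0 w hw).ne'
  have hGd : ∀ w, 0 ≤ w → HasDerivAt G (-ph w - (-(w * ph w) * c w + ph w *
      ((p' w * d w - p w * d' w) / d w ^ 2))) w := fun w hw =>
    (hasDerivAt_Qf w).sub ((hasDerivAt_ph w).mul (hcd w hw))
  have hGd2 : ∀ w, 0 ≤ w → -ph w - (-(w * ph w) * c w + ph w *
      ((p' w * d w - p w * d' w) / d w ^ 2)) = - (ph w * (K / d w ^ 2)) := by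
    intro w hw
    have hdw := (hd0 w hw).ne'
    have h2 := hid w
    simp only [hc]
    have h3 : K = -(w * p w * d w - d w ^ 2 - p' w * d w + p w * d' w) := by
      linarith
    rw [h3]
    field_simp
    ring
  have hanti : AntitoneOn G (Ici 0) := by
    apply antitoneOn_of_deriv_nonpos (convex_Ici 0)
    · intro w hw
      exact (hGd w hw).continuousAt.continuousWithinAt
    · intro w hw
      rw [interior_Ici] at hw
      exact (hGd w (le_of_lt hw)).differentiableAt.differentiableWithinAt
    · intro w hw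
      rw [interior_Ici] at hw
      have hw0 : (0 : ℝ) ≤ w := le_of_lt hw
      rw [(hGd w hw0).deriv, hGd2 w hw0]
      have := hd0 w hw0
      have := ph_pos w
      have h3 : 0 ≤ ph w * (K / d w ^ 2) := by positivity
      linarith
  have hlim : Tendsto G atTop (𝓝 0) := by
    have h1 : Tendsto (fun w => ph w * c w) atTop (𝓝 0) := by
      have h2 : ∀ᶠ w in atTop, ph w * c w ≤ ph w := by
        filter_upwards [eventually_ge_atTop (1 : ℝ)] with w hw
        have hw0 : (0 : ℝ) ≤ w := by linarith
        have h3 : c w ≤ 1 := by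
          simp only [hc]
          rw [div_le_one (hd0 w hw0)]
          have := hpd w hw0
          have := hp0 w hw0
          nlinarith
        have := ph_pos w
        nlinarith
      have h0 : ∀ᶠ w in atTop, 0 ≤ ph w * c w := by
        filter_upwards [eventually_ge_atTop (0 : ℝ)] with w hw0
        have := hd0 w hw0
        have := hp0 w hw0
        have := ph_pos w
        simp only [hc]
        positivity
      exact squeeze_zero' h0 h2 tendsto_ph_atTop
    have := tendsto_Qf_atTop.sub h1
    simpa using this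
  have hGu : 0 ≤ G u := by
    apply le_of_tendsto hlim
    filter_upwards [eventually_ge_atTop u] with w hw
    exact hanti hu (hu.trans hw) hw
  simp only [hG, hc] at hGu
  have hdu := hd0 u hu
  have h5 : ph u * (p u / d u) = ph u * p u / d u := by ring
  rw [h5] at hGu
  have h6 : ph u * p u / d u ≤ Qf u := by linarith
  rw [div_le_iff₀ hdu] at h6
  linarith

end Vale.Agent.P226h6
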