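import Vale.Agent.P226h6.Stein

open MeasureTheory ProbabilityTheory Real Set Filter Topology
open scoped RealInnerProductSpace ENNReal NNReal

namespace Vale.Agent.P226h6

open Vale.Agent.P226h14

/-- Uniqueness of the dependency of pairwise strictly obtuse vectors. -/
lemma dependency_unique {E : Type*} [NormedAddCommGroup E] [InnerProductSpace ℝ E]
    {ι : Type*} [Fintype ι] [Nonempty ι] (v : ι → E) (w c : ι → ℝ)
    (hw : ∀ j, 0 < w j) (hneg : ∀ j l, j ≠ l → ⟪v j, v l⟫ < 0)
    (hbal : ∑ j, w j • v j = 0) (hc : ∑ j, c j • v j = 0) :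
    ∃ μ : ℝ, ∀ j, c j = μ * w j := by
  classical
  obtain ⟨j0, -, hj0⟩ := Finset.exists_min_image Finset.univ (fun j => c j / w j)
    Finset.univ_nonempty
  set μ : ℝ := c j0 / w j0 with hμ
  refine ⟨μ, ?_⟩
  set d : ι → ℝ := fun j => c j - μ * w j with hd
  have hd0 : ∀ j, 0 ≤ d j := by
    intro j
    have h1 := hj0 j (Finset.mem_univ j)
    have h2 := hw j
    rw [le_div_iff₀ h2] at h1
    simp only [hd]
    linarith
  have hdj0 : d j0 = 0 := by
    simp only [hd, hμ]
    have := (hw j0).ne'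
    field_simp
    ring
  have hsum : ∑ j, d j • v j = 0 := by
    have : ∀ j, d j • v j = c j • v j - μ • (w j • v j) := by
      intro j
      simp only [hd, sub_smul, smul_smul]
    simp_rw [this]
    rw [Finset.sum_sub_distrib, hc, ← Finset.smul_sum, hbal]
    simp
  have hin : ∑ j, d j * ⟪v j, v j0⟫ = 0 := by
    have := congrArg (fun y => ⟪y, v j0⟫) hsum
    simp only [sum_inner, inner_smul_left, inner_zero_left] at this
    simpa using this
  have hle : ∀ j ∈ Finset.univ, d j * ⟪v j, v j0⟫ ≤ 0 := by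
    intro j _
    by_cases hj : j = j0
    · rw [hj, hdj0, zero_mul]
    · exact mul_nonpos_of_nonneg_of_nonpos (hd0 j) (hneg j j0 hj).le
  have hall := (Finset.sum_eq_zero_iff_of_nonpos hle).1 hin
  intro j
  by_cases hj : j = j0
  · rw [hj, hμ]
    have := (hw j0).ne'
    field_simp
  · have h1 := hall j (Finset.mem_univ j)
    have h2 := hneg j j0 hj
    have h3 : d j = 0 := by
      rcases mul_eq_zero.1 h1 with h | h
      · exact h
      · exact absurd h h2.ne
    simp only [hd] at h3
    linarith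

/-- The sum of the excess of the weights. -/
lemma sum_excess {ι : Type*} [Fintype ι] (a : ι → ℝ) {N : ℝ} (hN : 1 ≤ N)
    (ha0 : ∀ j, 0 ≤ a j) (hsum : ∑ j, a j = 1) :
    ∑ j, max (a j - 1 / N) 0 ≤ 1 - 1 / N := by
  classical
  have hN0 : 0 < N := by linarith
  have h1N : 1 / N ≤ 1 := by
    rw [div_le_one hN0]
    exact hN
  set P := Finset.univ.filter fun j => 1 / N < a j with hP
  have e : ∑ j, max (a j - 1 / N) 0 = ∑ j ∈ P, (a j - 1 / N) := by
    rw [hP, Finset.sum_filter]
    apply Finset.sum_congr rfl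
    intro j _
    by_cases hj : 1 / N < a j
    · rw [if_pos hj, max_eq_left (by linarith)]
    · rw [if_neg hj, max_eq_right (by linarith [not_lt.1 hj])]
  rw [e]
  by_cases hne : P.Nonempty
  · have h2 : ∑ j ∈ P, a j ≤ 1 := by
      rw [← hsum]
      exact Finset.sum_le_sum_of_subset_of_nonneg (Finset.subset_univ _) (fun j _ _ => ha0 j)
    rw [Finset.sum_sub_distrib]
    have h3 : (1 : ℝ) ≤ P.card := by
      have := Finset.card_pos.2 hne
      exact_mod_cast this
    simp only [Finset.sum_const, nsmul_eq_mul]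
    have h4 : 1 / N ≤ (P.card : ℝ) * (1 / N) := by
      have := (div_pos one_pos hN0).le
      nlinarith
    linarith
  · rw [Finset.not_nonempty_iff_eq_empty] at hne
    rw [hne, Finset.sum_empty]
    linarith

/-- The pointwise bound of the gap on the cell. -/
lemma gap_point {r u α β m θ : ℝ} (hru : u ≤ r) (hu : 0 ≤ u) (hα : 0 < α) (hβ : 0 < β)
    (h1 : r - m ≤ α * (r - u)) (h2 : r - m ≤ β * r)
    (hθ : θ = max (α - β) 0 / α) : r - m ≤ β * (r - u) + β * θ * r := by
  have hr0 : 0 ≤ r := hu.trans hru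
  have hru' : 0 ≤ r - u := by linarith
  by_cases hab : α ≤ β
  · have e : max (α - β) 0 = 0 := max_eq_right (by linarith)
    rw [hθ, e, zero_div, mul_zero, zero_mul, add_zero]
    exact h1.trans (mul_le_mul_of_nonneg_right hab hru')
  · push Not at hab
    have e : max (α - β) 0 = α - β := max_eq_left (by linarith)
    rw [hθ, e]
    have e1 : β * (r - u) + β * ((α - β) / α) * r = (β / α) * (α * (r - u)) + ((α - β) / α) * (β * r) := by
      field_simp
    rw [e1]
    have h3 : 0 ≤ β / α := by positivity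
    have h4 : 0 ≤ (α - β) / α := div_nonneg (by linarith) hα.le
    have h5 : r - m = (β / α) * (r - m) + ((α - β) / α) * (r - m) := by
      field_simp
      ring
    have h6 := mul_le_mul_of_nonneg_left h1 h3
    have h7 := mul_le_mul_of_nonneg_left h2 h4
    linarith

variable {E : Type*} [NormedAddCommGroup E] [InnerProductSpace ℝ E] [FiniteDimensional ℝ E]
  [MeasurableSpace E] [BorelSpace E]

section cell

variable {ι : Type*} [Fintype ι] [Nonempty ι]

omit [FiniteDimensional ℝ E] [MeasurableSpace E] [BorelSpace E] in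
lemma slice_cell_iff (v : ι → E) {n : E} (hn : ‖n‖ = 1) (horth : ∀ j, ⟪v j, n⟫ = 0) (x : E) (r : ℝ) :
    slice n (x, r) ∈ ({y | ∀ l, ⟪v l, y⟫ ≤ ⟪n, y⟫} : Set E) ↔ wid v x ≤ r := by
  have hnn : ⟪n, n⟫ = 1 := by rw [real_inner_self_eq_norm_sq, hn]; norm_num
  have h1 : ∀ l, ⟪v l, slice n (x, r)⟫ = ⟪v l, x⟫ := by
    intro l
    rw [inner_slice, horth]
    ring
  have h2 : ⟪n, slice n (x, r)⟫ = r := by
    rw [inner_slice, hnn]
    ring
  constructor
  · intro h
    apply wid_le
    intro l
    have := h l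
    rwa [h1, h2] at this
  · intro h l
    rw [h1, h2]
    exact (le_wid v x l).trans h

omit [Nonempty ι] in
lemma measurableSet_cellC (v : ι → E) (n : E) :
    MeasurableSet ({y | ∀ l, ⟪v l, y⟫ ≤ ⟪n, y⟫} : Set E) := by
  have : ({y | ∀ l, ⟪v l, y⟫ ≤ ⟪n, y⟫} : Set E) = ⋂ l, {y | ⟪v l, y⟫ ≤ ⟪n, y⟫} := by
    ext x; simp
  rw [this]
  exact MeasurableSet.iInter fun l =>
    measurableSet_le (measurable_inner_left _) (measurable_inner_left _)

/-- The moment of the cell orthogonal to the axis. -/
lemma cell_moment_perp (v : ι → E) {n b : E} (hn : ‖n‖ = 1) (horth : ∀ j, ⟪v j, n⟫ = 0)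
    (hb : ⟪b, n⟫ = 0) :
    ∫ y in {y | ∀ l, ⟪v l, y⟫ ≤ ⟪n, y⟫}, ⟪b, y⟫ ∂(stdGaussian E) =
      ∫ x, ⟪b, x⟫ * Qf (wid v x) ∂(stdGaussian E) := by
  set C : Set E := {y | ∀ l, ⟪v l, y⟫ ≤ ⟪n, y⟫} with hC
  have hmC : MeasurableSet C := measurableSet_cellC v n
  have hI : Integrable (C.indicator fun y => ⟪b, y⟫) (stdGaussian E) :=
    (integrable_inner_std b).indicator hmC
  rw [← integral_indicator hmC, integral_slice n hn hI]
  apply integral_congr_ae
  apply Eventually.of_forall
  intro x
  have hs : ∀ r, (C.indicator fun y => ⟪b, y⟫) (slice n (x, r)) =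
      (Ici (wid v x)).indicator (fun _ => ⟪b, x⟫) r := by
    intro r
    have hb2 : ⟪b, slice n (x, r)⟫ = ⟪b, x⟫ := by
      rw [inner_slice, hb]
      ring
    by_cases hr : wid v x ≤ r
    · rw [indicator_of_mem ((slice_cell_iff v hn horth x r).2 hr),
        indicator_of_mem (show r ∈ Ici (wid v x) from hr), hb2]
    · rw [indicator_of_notMem (fun h => hr ((slice_cell_iff v hn horth x r).1 h)),
        indicator_of_notMem (show r ∉ Ici (wid v x) from hr)]
  simp only
  simp_rw [hs]
  rw [integral_indicator measurableSet_Ici, setIntegral_const]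
  simp [Qf, mul_comm]

/-- The moment of the cell along the axis. -/
lemma cell_moment_axis (v : ι → E) {n : E} (hn : ‖n‖ = 1) (horth : ∀ j, ⟪v j, n⟫ = 0) :
    ∫ y in {y | ∀ l, ⟪v l, y⟫ ≤ ⟪n, y⟫}, ⟪n, y⟫ ∂(stdGaussian E) =
      ∫ x, ph (wid v x) ∂(stdGaussian E) := by
  have hnn : ⟪n, n⟫ = 1 := by rw [real_inner_self_eq_norm_sq, hn]; norm_num
  set C : Set E := {y | ∀ l, ⟪v l, y⟫ ≤ ⟪n, y⟫} with hC
  have hmC : MeasurableSet C := measurableSet_cellC v n
  have hI : Integrable (C.indicator fun y => ⟪n, y⟫) (stdGaussian E) :=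
    (integrable_inner_std n).indicator hmC
  rw [← integral_indicator hmC, integral_slice n hn hI]
  apply integral_congr_ae
  apply Eventually.of_forall
  intro x
  have hs : ∀ r, (C.indicator fun y => ⟪n, y⟫) (slice n (x, r)) =
      (Ici (wid v x)).indicator (fun r => r) r := by
    intro r
    have hb2 : ⟪n, slice n (x, r)⟫ = r := by
      rw [inner_slice, hnn]
      ring
    by_cases hr : wid v x ≤ r
    · rw [indicator_of_mem ((slice_cell_iff v hn horth x r).2 hr),
        indicator_of_mem (show r ∈ Ici (wid v x) from hr), hb2]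
    · rw [indicator_of_notMem (fun h => hr ((slice_cell_iff v hn horth x r).1 h)),
        indicator_of_notMem (show r ∉ Ici (wid v x) from hr)]
  simp only
  simp_rw [hs]
  rw [integral_indicator measurableSet_Ici, integral_Ici_id]

/-- the fibre integral of the gap -/
noncomputable def gapF (v : ι → E) (n : E) (M : E → ℝ) : E → ℝ :=
  ({y | ∀ l, ⟪v l, y⟫ ≤ ⟪n, y⟫} : Set E).indicator fun y => ⟪n, y⟫ - M y

variable [LinearOrder ι]

/-- The flux identity: the fluxes are proportional to the weights. -/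
theorem flux_eq (v : ι → E) (a : ι → ℝ) {n : E} (hn : ‖n‖ = 1) (horth : ∀ j, ⟪v j, n⟫ = 0)
    (ha0 : ∀ j, 0 ≤ a j) (hsum : ∑ j, a j = 1)
    (hneg : ∀ j l, j ≠ l → ⟪v j, v l⟫ < 0)
    (hbal : ∑ j, (1 + a j) • v j = 0)
    (hperp : ∀ b : E, ⟪b, n⟫ = 0 → ∫ y in {y | ∀ l, ⟪v l, y⟫ ≤ ⟪n, y⟫}, ⟪b, y⟫ ∂(stdGaussian E) = 0)
    (j : ι) :
    flux v j = (1 + a j) * ((∫ x, ph (wid v x) ∂(stdGaussian E)) / ((Fintype.card ι : ℝ) + 1)) := by
  classical
  have hd : ∀ j l, j ≠ l → v j ≠ v l := by
    intro j l hjl h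
    have := hneg j l hjl
    rw [h, real_inner_self_eq_norm_sq] at this
    have h2 : 0 ≤ ‖v l‖ ^ 2 := by positivity
    linarith
  -- the flux vector vanishes
  set b : E := ∑ j, flux v j • v j with hb
  have hbn : ⟪b, n⟫ = 0 := by
    rw [hb, sum_inner]
    apply Finset.sum_eq_zero
    intro j _
    rw [inner_smul_left, horth]
    simp
  have h1 := hperp b hbn
  rw [cell_moment_perp v hn horth hbn, stein_wid v hd b] at h1
  have hbb : ⟪b, b⟫ = 0 := by
    have e : ⟪b, b⟫ = ∑ j, ⟪v j, b⟫ * flux v j := by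
      have e0 : ⟪b, b⟫ = ⟪∑ j, flux v j • v j, b⟫ := rfl
      rw [e0, sum_inner]
      apply Finset.sum_congr rfl
      intro j _
      rw [inner_smul_left, conj_trivial, mul_comm]
    rw [e]
    linarith
  have hb0 : b = 0 := inner_self_eq_zero.1 hbb
  obtain ⟨μ, hμ⟩ := dependency_unique v (fun j => 1 + a j) (flux v)
    (fun j => by linarith [ha0 j]) hneg hbal hb0
  have htotal : ∑ j, flux v j = ∫ x, ph (wid v x) ∂(stdGaussian E) := by
    simp only [flux]
    exact sum_setIntegral_part (isPart_vcell v) (integrable_ph_wid v)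
  have hk : ∑ j, (1 + a j) = (Fintype.card ι : ℝ) + 1 := by
    rw [Finset.sum_add_distrib, hsum]
    simp
  have hμ2 : μ = (∫ x, ph (wid v x) ∂(stdGaussian E)) / ((Fintype.card ι : ℝ) + 1) := by
    have hN0 : (0 : ℝ) < (Fintype.card ι : ℝ) + 1 := by positivity
    rw [eq_div_iff hN0.ne', ← htotal, ← hk]
    simp_rw [hμ]
    rw [Finset.mul_sum]
  rw [hμ j, hμ2]
  ring

/-- The bound of the integral of the gap over the cell, using the flux identity. -/
theorem gap_bound (v : ι → E) (a : ι → ℝ) (n : E) (M : E → ℝ) (hn : ‖n‖ = 1)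
    (horth : ∀ j, ⟪v j, n⟫ = 0)
    (ha0 : ∀ j, 0 ≤ a j) (hsum : ∑ j, a j = 1)
    (hneg : ∀ j l, j ≠ l → ⟪v j, v l⟫ < 0)
    (hbal : ∑ j, (1 + a j) • v j = 0)
    (hperp : ∀ b : E, ⟪b, n⟫ = 0 → ∫ y in {y | ∀ l, ⟪v l, y⟫ ≤ ⟪n, y⟫}, ⟪b, y⟫ ∂(stdGaussian E) = 0)
    (hMint : Integrable M (stdGaussian E))
    (hM : ∀ x j, (1 + a j) * ⟪v j, x⟫ - a j * ⟪n, x⟫ ≤ M x) :
    ∫ x, gapF v n M x ∂(stdGaussian E) ≤
      (1 + 1 / (Fintype.card ι : ℝ)) * ∫ x, Tf (wid v x) ∂(stdGaussian E) +
        (∫ x, ph (wid v x) ∂(stdGaussian E)) / (Fintype.card ι : ℝ) *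
          (1 - 1 / (Fintype.card ι : ℝ)) := by
  classical
  set N : ℝ := (Fintype.card ι : ℝ) with hN
  have hN1 : 1 ≤ N := by
    have : 1 ≤ Fintype.card ι := Fintype.card_pos
    rw [hN]
    exact_mod_cast this
  have hN0 : 0 < N := by linarith
  set β : ℝ := 1 + 1 / N with hβ
  have hβ0 : 0 < β := by positivity
  set Z : ℝ := ∫ x, ph (wid v x) ∂(stdGaussian E) with hZ
  have hZ0 : 0 ≤ Z := integral_nonneg fun x => (ph_pos _).le
  set θ : ι → ℝ := fun j => max (1 + a j - β) 0 / (1 + a j) with hθ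
  have hα : ∀ j, 0 < 1 + a j := fun j => by linarith [ha0 j]
  have hθ0 : ∀ j, 0 ≤ θ j := fun j =>
    div_nonneg (le_max_right _ _) (hα j).le
  have hU0 : ∀ x, 0 ≤ wid v x := wid_nonneg v a ha0 hbal
  have hmC := measurableSet_cellC v n
  have hFint : Integrable (gapF v n M) (stdGaussian E) :=
    ((integrable_inner_std n).sub hMint).indicator hmC
  obtain ⟨hae, hout⟩ := integrable_slice n hn hFint
  have hTint : Integrable (fun x => Tf (wid v x)) (stdGaussian E) := by
    apply Integrable.of_bound (continuous_Tf.measurable.comp (measurable_wid v)).aestronglyMeasurable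
      (ph 0)
    apply Eventually.of_forall
    intro x
    rw [Real.norm_eq_abs, Function.comp_apply, abs_of_nonneg (Tf_nonneg _)]
    exact (Tf_le_ph (hU0 x)).trans (ph_le_ph_zero _)
  have hPint : ∀ j, Integrable ((vcell v j).indicator fun x => ph (wid v x)) (stdGaussian E) :=
    fun j => (integrable_ph_wid v).indicator (measurableSet_vcell v j)
  set Rb : E → ℝ := fun x => β * Tf (wid v x) +
    ∑ j, (β * θ j) * (vcell v j).indicator (fun x => ph (wid v x)) x with hRb
  have hRint : Integrable Rb (stdGaussian E) :=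
    (hTint.const_mul β).add (integrable_finsetSum _ fun j _ => (hPint j).const_mul _)
  have hnn : ⟪n, n⟫ = 1 := by rw [real_inner_self_eq_norm_sq, hn]; norm_num
  have hpt : ∀ᵐ x ∂(stdGaussian E), ∫ r, gapF v n M (slice n (x, r)) ∂(gaussianReal 0 1) ≤ Rb x := by
    filter_upwards [hae] with x hx
    obtain ⟨j, hj⟩ := exists_mem_vcell v x
    set u : ℝ := wid v x with hu
    have huj : ⟪v j, x⟫ = u := (wid_eq_of_mem hj).symm
    have hu0 : 0 ≤ u := hU0 x
    have hRx : Rb x = β * Tf u + β * θ j * ph u := by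
      simp only [hRb]
      congr 1
      rw [Finset.sum_eq_single j]
      · rw [indicator_of_mem hj]
      · intro i _ hi
        rw [indicator_of_notMem, mul_zero]
        intro hc
        exact Set.disjoint_left.1 (disjoint_vcell v hi) hc hj
      · intro hc
        exact absurd (Finset.mem_univ j) hc
    rw [hRx]
    have hid : Integrable (fun r : ℝ => r) (gaussianReal 0 1) :=
      memLp_id_gaussianReal (μ := 0) (v := 1) 1 |>.integrable (by norm_num)
    have hg : Integrable (fun r : ℝ => β * (r - u) + β * θ j * r) (gaussianReal 0 1) :=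
      ((hid.sub (integrable_const u)).const_mul β).add (hid.const_mul _)
    have hval : ∫ r in Ici u, (β * (r - u) + β * θ j * r) ∂(gaussianReal 0 1) =
        β * Tf u + β * θ j * ph u := by
      have i1 : IntegrableOn (fun r : ℝ => β * (r - u)) (Ici u) (gaussianReal 0 1) :=
        ((hid.sub (integrable_const u)).const_mul β).integrableOn
      have i2 : IntegrableOn (fun r : ℝ => β * θ j * r) (Ici u) (gaussianReal 0 1) :=
        (hid.const_mul _).integrableOn
      rw [integral_add i1 i2, integral_const_mul, integral_const_mul, integral_Ici_id,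
        Tf_eq_integral]
    rw [← hval, ← integral_indicator measurableSet_Ici]
    apply integral_mono hx (hg.indicator measurableSet_Ici)
    intro r
    simp only [gapF]
    by_cases hr : u ≤ r
    · have hC : slice n (x, r) ∈ ({y | ∀ l, ⟪v l, y⟫ ≤ ⟪n, y⟫} : Set E) :=
        (slice_cell_iff v hn horth x r).2 hr
      rw [indicator_of_mem hC, indicator_of_mem (show r ∈ Ici u from hr)]
      set y := slice n (x, r) with hy
      have hny : ⟪n, y⟫ = r := by
        rw [hy, inner_slice, hnn]
        ring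
      have hvy : ∀ l, ⟪v l, y⟫ = ⟪v l, x⟫ := by
        intro l
        rw [hy, inner_slice, horth]
        ring
      rw [hny]
      have h1 : r - M y ≤ (1 + a j) * (r - u) := by
        have := hM y j
        rw [hvy, huj, hny] at this
        linarith
      have h2 : r - M y ≤ β * r := by
        have h3 : ∑ l, ((1 + a l) * ⟪v l, y⟫ - a l * ⟪n, y⟫) ≤ ∑ _l : ι, M y :=
          Finset.sum_le_sum fun l _ => hM y l
        have h4 : ∑ l, (1 + a l) * ⟪v l, y⟫ = 0 := by
          have := congrArg (fun z => ⟪z, y⟫) hbal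
          simp only [sum_inner, inner_smul_left, inner_zero_left] at this
          simpa using this
        rw [Finset.sum_sub_distrib, h4, ← Finset.sum_mul, hsum, hny] at h3
        simp only [Finset.sum_const, Finset.card_univ, nsmul_eq_mul] at h3
        have h5 : -r ≤ N * M y := by
          have : (0 : ℝ) - 1 * r = -r := by ring
          rw [← this]
          exact h3
        have h6 : β * r = r + r / N := by
          simp only [hβ]
          field_simp
        rw [h6]
        have h7 : -(r / N) ≤ M y := by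
          rw [neg_le, le_div_iff₀ hN0]
          nlinarith
        linarith
      exact gap_point hr hu0 (hα j) hβ0 h1 h2 rfl
    · have hC : slice n (x, r) ∉ ({y | ∀ l, ⟪v l, y⟫ ≤ ⟪n, y⟫} : Set E) :=
        fun h => hr ((slice_cell_iff v hn horth x r).1 h)
      rw [indicator_of_notMem hC, indicator_of_notMem (show r ∉ Ici u from hr)]
  have hmain : ∫ x, gapF v n M x ∂(stdGaussian E) ≤ ∫ x, Rb x ∂(stdGaussian E) := by
    rw [integral_slice n hn hFint]
    exact integral_mono_ae hout hRint hpt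
  have hRval : ∫ x, Rb x ∂(stdGaussian E) =
      β * ∫ x, Tf (wid v x) ∂(stdGaussian E) + ∑ j, (β * θ j) * flux v j := by
    simp only [hRb]
    rw [integral_add (hTint.const_mul β)
      (integrable_finsetSum _ fun j _ => (hPint j).const_mul _), integral_const_mul,
      integral_finsetSum _ fun j _ => (hPint j).const_mul _]
    congr 1
    apply Finset.sum_congr rfl
    intro j _
    rw [integral_const_mul, integral_indicator (measurableSet_vcell v j)]
    rfl
  have hflux : ∀ j, flux v j = (1 + a j) * (Z / (N + 1)) :=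
    flux_eq v a hn horth ha0 hsum hneg hbal hperp
  have hterm : ∀ j, (β * θ j) * flux v j = (Z / N) * max (a j - 1 / N) 0 := by
    intro j
    rw [hflux]
    simp only [hθ, hβ]
    have e : 1 + a j - (1 + 1 / N) = a j - 1 / N := by ring
    rw [e]
    have := hα j
    have hNN : N + 1 ≠ 0 := by linarith
    field_simp
  have hsumT : ∑ j, (β * θ j) * flux v j ≤ (Z / N) * (1 - 1 / N) := by
    simp_rw [hterm]
    rw [← Finset.mul_sum]
    apply mul_le_mul_of_nonneg_left (sum_excess a hN1 ha0 hsum)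
    positivity
  rw [hRval] at hmain
  linarith

end cell

end Vale.Agent.P226h6
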