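import Vale.Agent.P226h6.Grid

open MeasureTheory ProbabilityTheory Real Set Filter Topology
open scoped RealInnerProductSpace ENNReal NNReal

namespace Vale.Agent.P226h6

open Vale.Agent.P226h14

theorem P1_checks : ∀ k ∈ List.range 127, ChkS 31 250000000000 P1T k := by decide +kernel

theorem P1_last : P1T.getD 127 0 ≤ 0 ∧ Rho 127 ≤ 250000000000 ∧
    ((D : ℤ) - (250000000000 : ℕ)) * D ≤ P1T.getD 0 0 := by decide +kernel

variable {E : Type*} [NormedAddCommGroup E] [InnerProductSpace ℝ E] [FiniteDimensional ℝ E]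
  [MeasurableSpace E] [BorelSpace E]
variable {ι : Type*} [Fintype ι] [Nonempty ι]

omit [Nonempty ι] in
lemma integrable_TU (v : ι → E) [Nonempty ι] (a : ι → ℝ) (ha0 : ∀ j, 0 ≤ a j)
    (hbal : ∑ j, (1 + a j) • v j = 0) (b c : ℝ) :
    Integrable (fun x => b * Tf (wid v x) + c * ph (wid v x)) (stdGaussian E) := by
  have hUm : Measurable (wid v) := measurable_wid v
  have hU0 : ∀ x, 0 ≤ wid v x := wid_nonneg v a ha0 hbal
  have h1 : Integrable (fun x => Tf (wid v x)) (stdGaussian E) := by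
    apply Integrable.of_bound (continuous_Tf.measurable.comp hUm).aestronglyMeasurable (ph 0)
    apply Eventually.of_forall
    intro x
    rw [Real.norm_eq_abs, Function.comp_apply, abs_of_nonneg (Tf_nonneg _)]
    exact (Tf_le_ph (hU0 x)).trans (ph_le_ph_zero _)
  have h2 : Integrable (fun x => ph (wid v x)) (stdGaussian E) := by
    apply Integrable.of_bound (continuous_ph.measurable.comp hUm).aestronglyMeasurable (ph 0)
    apply Eventually.of_forall
    intro x
    rw [Real.norm_eq_abs, Function.comp_apply, abs_of_pos (ph_pos _)]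
    exact ph_le_ph_zero _
  exact (h1.const_mul b).add (h2.const_mul c)

/-- the estimate with the constant one quarter -/
theorem key_TU1 (v : ι → E) (a : ι → ℝ)
    (ha0 : ∀ j, 0 ≤ a j) (ha1 : ∀ j, a j < 1) (hsum : ∑ j, a j = 1)
    (hneg : ∀ j l, j ≠ l → ⟪v j, v l⟫ ≤ 0)
    (hbal : ∑ j, (1 + a j) • v j = 0)
    (hvar : ∀ j, 1 - a j ≤ (1 + a j) * ‖v j‖ ^ 2) (hN : 31 ≤ Fintype.card ι) :
    ∫ x, (Tf (wid v x) - (1 / 4) * ph (wid v x)) ∂(stdGaussian E) ≤ 0 := by
  have h := key_grid v a ha0 ha1 hsum hneg hbal hvar 31 250000000000 127 P1T (by norm_num) hN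
    (by norm_num [D]) (fun k hk => chkE_all k (List.mem_range.2 (by omega)))
    (fun k hk => P1_checks k (List.mem_range.2 hk)) P1_last.2.2 P1_last.1 P1_last.2.1
  have e : ((250000000000 : ℕ) : ℝ) / D = 1 / 4 := by norm_num [D]
  rw [e] at h
  exact h

/-- The inequality on the cell of the smallest vertex: at least 31 other vertices. -/
theorem key_ineq1 (v : ι → E) (a : ι → ℝ) (n : E) (M : E → ℝ) (hn : ‖n‖ = 1)
    (horth : ∀ j, ⟪v j, n⟫ = 0)
    (ha0 : ∀ j, 0 ≤ a j) (ha1 : ∀ j, a j < 1) (hsum : ∑ j, a j = 1)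
    (hneg : ∀ j l, j ≠ l → ⟪v j, v l⟫ ≤ 0)
    (hbal : ∑ j, (1 + a j) • v j = 0)
    (hvar : ∀ j, 1 - a j ≤ (1 + a j) * ‖v j‖ ^ 2)
    (hMint : Integrable M (stdGaussian E))
    (hM : ∀ x j, (1 + a j) * ⟪v j, x⟫ - a j * ⟪n, x⟫ ≤ M x) (hN : 31 ≤ Fintype.card ι) :
    ∫ x, cellF v n M x ∂(stdGaussian E) ≤ 0 := by
  classical
  have hmC : MeasurableSet ({y | ∀ l, ⟪v l, y⟫ ≤ ⟪n, y⟫} : Set E) := by
    have : ({y | ∀ l, ⟪v l, y⟫ ≤ ⟪n, y⟫} : Set E) = ⋂ l, {y | ⟪v l, y⟫ ≤ ⟪n, y⟫} := by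
      ext x; simp
    rw [this]
    exact MeasurableSet.iInter fun l =>
      measurableSet_le (measurable_inner_left _) (measurable_inner_left _)
  have hFint : Integrable (cellF v n M) (stdGaussian E) := by
    have h1 : Integrable (fun y : E => ⟪n, y⟫) (stdGaussian E) :=
      IsGaussian.integrable_dual (stdGaussian E) (innerSL ℝ n)
    exact (h1.sub (hMint.const_mul 2)).indicator hmC
  obtain ⟨hae, hout⟩ := integrable_slice n hn hFint
  have hRint := integrable_TU v a ha0 hbal (E := E) 4 (-1)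
  have hpt : ∀ᵐ x ∂(stdGaussian E), ∫ r, cellF v n M (slice n (x, r)) ∂(gaussianReal 0 1) ≤
      4 * Tf (wid v x) + (-1) * ph (wid v x) := by
    filter_upwards [hae] with x hx
    obtain ⟨j, -, hj⟩ := Finset.exists_max_image Finset.univ (fun l => ⟪v l, x⟫)
      Finset.univ_nonempty
    have hj' : ∀ l, ⟪v l, x⟫ ≤ ⟪v j, x⟫ := fun l => hj l (Finset.mem_univ l)
    have hU : wid v x = ⟪v j, x⟫ := le_antisymm (wid_le v x hj') (le_wid v x j)
    have hin := inner_bound v a n M hn horth hM x j hj' hx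
    refine hin.trans ?_
    rw [J_eq, hU]
    set u := ⟪v j, x⟫ with hu
    have hT := Tf_nonneg u
    have haj := ha1 j
    have e : (1 + 2 * a j) * ph u - 2 * (1 + a j) * u * (gaussianReal 0 1).real (Ici u) =
        2 * (1 + a j) * Tf u - ph u := by
      simp only [Tf, Qf]
      ring
    rw [e]
    nlinarith
  have hmain : ∫ x, cellF v n M x ∂(stdGaussian E) ≤
      ∫ x, (4 * Tf (wid v x) + (-1) * ph (wid v x)) ∂(stdGaussian E) := by
    rw [integral_slice n hn hFint]
    exact integral_mono_ae hout hRint hpt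
  have h1 := key_TU1 v a ha0 ha1 hsum hneg hbal hvar (E := E) hN
  have hH2 := integrable_TU v a ha0 hbal (E := E) 1 (-(1 / 4))
  have e2 : ∫ x, (4 * Tf (wid v x) + (-1) * ph (wid v x)) ∂(stdGaussian E) =
      4 * ∫ x, (Tf (wid v x) - (1 / 4) * ph (wid v x)) ∂(stdGaussian E) := by
    rw [← integral_const_mul]
    congr 1
    ext x
    ring
  rw [e2] at hmain
  linarith

omit [Nonempty ι]

/-- The key inequality in terms of the fixed point. -/
theorem delete_ineq1 [LinearOrder ι] {w : ι → E} {i0 : ι} [Nonempty {l // l ≠ i0}] [Nonempty ι]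
    (hfix : ∀ i, mom (vcell w i) = w i)
    (hobt : ∀ i j, i ≠ j → ⟪w i, w j⟫ < 0)
    (hmin : ∀ j, ‖w i0‖ ≤ ‖w j‖)
    (hN : 31 ≤ Fintype.card {l // l ≠ i0}) :
    ‖w i0‖ ^ 2 ≤
      2 * ∫ x in vcell w i0, wid (fun l : {l // l ≠ i0} => w l.1) x ∂(stdGaussian E) := by
  classical
  set ι' := {l // l ≠ i0} with hι'
  set w' : ι' → E := fun l => w l.1 with hw'
  set z : ℝ := ‖w i0‖ with hz
  have hz0 : 0 < z := by
    rw [hz, norm_pos_iff]
    intro h0
    obtain ⟨l⟩ := (inferInstance : Nonempty ι')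
    have := hobt l.1 i0 l.2
    rw [h0, inner_zero_right] at this
    exact lt_irrefl _ this
  have hzz : ⟪w i0, w i0⟫ = z ^ 2 := real_inner_self_eq_norm_sq _
  have hz2 : z ^ 2 ≠ 0 := by positivity
  -- the balance
  have hsumw : w i0 + ∑ l : ι', w l.1 = 0 := by
    have h1 := sum_mom (isPart_vcell w)
    simp_rw [hfix] at h1
    rw [Fintype.sum_eq_add_sum_subtype_ne w i0] at h1
    exact h1
  set a : ι' → ℝ := fun l => -⟪w l.1, w i0⟫ / z ^ 2 with ha_def
  have hpair : ∀ l : ι', ⟪w l.1, w i0⟫ = -(a l * z ^ 2) := by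
    intro l
    simp only [ha_def]
    field_simp
  have ha_pos : ∀ l, 0 < a l := by
    intro l
    apply div_pos _ (by positivity)
    have := hobt l.1 i0 l.2
    linarith
  have ha_nonneg : ∀ l, 0 ≤ a l := fun l => (ha_pos l).le
  have hsum : ∑ l, a l = 1 := by
    simp only [ha_def]
    rw [← Finset.sum_div, Finset.sum_neg_distrib, div_eq_iff hz2, one_mul]
    have h1 : ∑ l : ι', ⟪w l.1, w i0⟫ = ⟪∑ l : ι', w l.1, w i0⟫ := by
      rw [sum_inner]
    have h2 : ∑ l : ι', w l.1 = - w i0 := by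
      rw [eq_neg_iff_add_eq_zero, add_comm]
      exact hsumw
    rw [h1, h2, inner_neg_left, hzz]
    ring
  set v : ι' → E := fun l => ((1 + a l) * z)⁻¹ • (w l.1 + a l • w i0) with hv
  set n : E := z⁻¹ • w i0 with hn
  have hc_pos : ∀ l, 0 < (1 + a l) * z := fun l => by
    have := ha_pos l
    positivity
  have hn1 : ‖n‖ = 1 := by
    rw [hn, norm_smul, norm_inv, norm_norm, ← hz]
    field_simp
  have hinner_base : ∀ (l : ι') (y : E),
      ⟪w l.1 + a l • w i0, y⟫ = ⟪w l.1, y⟫ + a l * ⟪w i0, y⟫ := by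
    intro l y
    rw [inner_add_left, inner_smul_left]
    simp
  have hvx : ∀ l y, ⟪v l, y⟫ = ((1 + a l) * z)⁻¹ * (⟪w l.1, y⟫ + a l * ⟪w i0, y⟫) := by
    intro l y
    simp only [hv]
    rw [inner_smul_left, hinner_base]
    simp
  have hnx : ∀ y, ⟪n, y⟫ = z⁻¹ * ⟪w i0, y⟫ := by
    intro y
    rw [hn, inner_smul_left]
    simp
  have horth : ∀ j, ⟪v j, n⟫ = 0 := by
    intro j
    have hjn : ⟪w j.1, n⟫ = z⁻¹ * ⟪w j.1, w i0⟫ := by
      rw [hn, inner_smul_right]
    have hin : ⟪w i0, n⟫ = z⁻¹ * z ^ 2 := by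
      rw [hn, inner_smul_right, hzz]
    rw [hvx, hjn, hin, hpair]
    ring
  -- the Gram computation
  have hgram : ∀ j l : ι', ⟪w j.1 + a j • w i0, w l.1 + a l • w i0⟫ =
      ⟪w j.1, w l.1⟫ - a j * a l * z ^ 2 := by
    intro j l
    rw [inner_add_left, inner_add_right, inner_add_right, inner_smul_left, inner_smul_right,
      inner_smul_right, inner_smul_left, hpair j, real_inner_comm (w l.1) (w i0), hpair l, hzz]
    simp
    ring
  have hneg : ∀ j l : ι', j ≠ l → ⟪v j, v l⟫ ≤ 0 := by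
    intro j l hjl
    simp only [hv]
    rw [inner_smul_left, inner_smul_right, hgram]
    have hne : j.1 ≠ l.1 := fun h => hjl (Subtype.ext h)
    have h1 := hobt j.1 l.1 hne
    have h2 : 0 ≤ a j * a l * z ^ 2 := by
      have := ha_pos j
      have := ha_pos l
      positivity
    have h3 : ⟪w j.1, w l.1⟫ - a j * a l * z ^ 2 ≤ 0 := by linarith
    have h4 : 0 ≤ ((1 + a j) * z)⁻¹ := (inv_pos.2 (hc_pos j)).le
    have h5 : 0 ≤ ((1 + a l) * z)⁻¹ := (inv_pos.2 (hc_pos l)).le
    have h6 := mul_nonpos_of_nonneg_of_nonpos h5 h3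
    simpa using mul_nonpos_of_nonneg_of_nonpos h4 h6
  have hbal : ∑ j, (1 + a j) • v j = 0 := by
    have h1 : ∀ j, (1 + a j) • v j = z⁻¹ • (w j.1 + a j • w i0) := by
      intro j
      simp only [hv]
      rw [smul_smul]
      congr 1
      have := ha_pos j
      field_simp
    simp_rw [h1]
    rw [← Finset.smul_sum, Finset.sum_add_distrib, ← Finset.sum_smul, hsum, one_smul]
    have h2 : ∑ l : ι', w l.1 = - w i0 := by
      rw [eq_neg_iff_add_eq_zero, add_comm]
      exact hsumw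
    rw [h2]
    simp
  have hvar : ∀ j, 1 - a j ≤ (1 + a j) * ‖v j‖ ^ 2 := by
    intro j
    have h1 : ‖v j‖ ^ 2 = ((1 + a j) * z)⁻¹ ^ 2 * (‖w j.1‖ ^ 2 - a j ^ 2 * z ^ 2) := by
      simp only [hv]
      rw [norm_smul, mul_pow, norm_inv, Real.norm_eq_abs, abs_of_pos (hc_pos j),
        ← real_inner_self_eq_norm_sq (w j.1 + a j • w i0), hgram, real_inner_self_eq_norm_sq]
      ring
    rw [h1]
    have h2 : z ^ 2 ≤ ‖w j.1‖ ^ 2 := by
      have := hmin j.1
      exact pow_le_pow_left₀ hz0.le this 2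
    have h3 := ha_pos j
    have h4 : (1 + a j) * ((1 + a j) * z)⁻¹ ^ 2 * (z ^ 2 - a j ^ 2 * z ^ 2) = 1 - a j := by
      field_simp
      ring
    have h5 : (1 + a j) * ((1 + a j) * z)⁻¹ ^ 2 * (z ^ 2 - a j ^ 2 * z ^ 2) ≤
        (1 + a j) * ((1 + a j) * z)⁻¹ ^ 2 * (‖w j.1‖ ^ 2 - a j ^ 2 * z ^ 2) := by
      apply mul_le_mul_of_nonneg_left _ (by positivity)
      linarith
    rw [h4] at h5
    linarith [h5]
  set M : E → ℝ := fun x => z⁻¹ * wid w' x with hMdef
  have hMint : Integrable M (stdGaussian E) := (integrable_wid w').const_mul _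
  have hM : ∀ x j, (1 + a j) * ⟪v j, x⟫ - a j * ⟪n, x⟫ ≤ M x := by
    intro x j
    have h1 : (1 + a j) * ⟪v j, x⟫ - a j * ⟪n, x⟫ = z⁻¹ * ⟪w j.1, x⟫ := by
      rw [hvx, hnx]
      have := ha_pos j
      field_simp
      ring
    rw [h1]
    apply mul_le_mul_of_nonneg_left (le_wid w' x j) (inv_pos.2 hz0).le
  have ha_lt : ∀ l, a l < 1 := by
    intro l
    obtain ⟨l2, hl2⟩ : ∃ l2 : ι', l2 ≠ l := by
      apply Fintype.exists_ne_of_one_lt_card
      have hN' : 31 ≤ Fintype.card ι' := hN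
      omega
    have h1 : a l + a l2 ≤ ∑ m, a m := by
      have h2 := Finset.sum_le_sum_of_subset_of_nonneg (s := {l, l2}) (t := Finset.univ) (f := a)
        (Finset.subset_univ _) (fun m _ _ => ha_nonneg m)
      rwa [Finset.sum_pair hl2.symm] at h2
    have := ha_pos l2
    linarith
  have hkey := key_ineq1 v a n M hn1 horth ha_nonneg ha_lt hsum hneg hbal hvar hMint hM hN
  -- identify the cell
  set Ct : Set E := {y | ∀ l, ⟪v l, y⟫ ≤ ⟪n, y⟫} with hCt
  have hCtiff : ∀ y, y ∈ Ct ↔ ∀ l : ι', ⟪w l.1, y⟫ ≤ ⟪w i0, y⟫ := by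
    intro y
    have h1 : ∀ l : ι', ⟪n, y⟫ - ⟪v l, y⟫ = ((1 + a l) * z)⁻¹ * (⟪w i0, y⟫ - ⟪w l.1, y⟫) := by
      intro l
      rw [hvx, hnx]
      have := ha_pos l
      field_simp
      ring
    constructor
    · intro hy l
      have h2 : 0 ≤ ⟪n, y⟫ - ⟪v l, y⟫ := by linarith [hy l]
      rw [h1] at h2
      have h3 := inv_pos.2 (hc_pos l)
      have h4 := (mul_nonneg_iff_of_pos_left h3).1 h2
      linarith
    · intro hy l
      have h2 := h1 l
      have h3 := inv_pos.2 (hc_pos l)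
      have h4 : 0 ≤ ⟪w i0, y⟫ - ⟪w l.1, y⟫ := by linarith [hy l]
      have h5 := mul_nonneg h3.le h4
      linarith
  have hmCt : MeasurableSet Ct := by
    have : Ct = ⋂ l, {y | ⟪v l, y⟫ ≤ ⟪n, y⟫} := by
      ext x; simp [hCt]
    rw [this]
    exact MeasurableSet.iInter fun l =>
      measurableSet_le (measurable_inner_left _) (measurable_inner_left _)
  have hsub1 : vcell w i0 ⊆ Ct := by
    intro y hy
    rw [hCtiff]
    intro l
    exact hy.1 l.1
  have hsub2 : Ct \ vcell w i0 ⊆ ⋃ j : ι', {y | ⟪w j.1 - w i0, y⟫ = 0} := by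
    intro y hy
    have h1 := (hCtiff y).1 hy.1
    have h2 : ¬ y ∈ vcell w i0 := hy.2
    have hfirst : ∀ j, ⟪w j, y⟫ ≤ ⟪w i0, y⟫ := by
      intro j
      by_cases hj : j = i0
      · rw [hj]
      · exact h1 ⟨j, hj⟩
    have h3 : ¬ ∀ j, j < i0 → ⟪w j, y⟫ < ⟪w i0, y⟫ := fun hh' => h2 ⟨hfirst, hh'⟩
    push Not at h3
    obtain ⟨j, hj, hj2⟩ := h3
    apply mem_iUnion.2
    refine ⟨⟨j, hj.ne⟩, ?_⟩
    have h4 := hfirst j
    change ⟪w j - w i0, y⟫ = 0
    rw [inner_sub_left]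
    linarith
  have hnull : stdGaussian E (Ct \ vcell w i0) = 0 := by
    apply measure_mono_null hsub2
    apply measure_iUnion_null
    intro j
    apply hyperplane_null
    intro h0
    have h1 : w j.1 = w i0 := sub_eq_zero.1 h0
    have h2 := hobt j.1 i0 j.2
    rw [h1, hzz] at h2
    have : 0 < z ^ 2 := by positivity
    linarith
  have hae : vcell w i0 =ᵐ[stdGaussian E] Ct := by
    rw [ae_eq_set]
    refine ⟨?_, hnull⟩
    rw [sdiff_eq_empty.2 hsub1]
    simp
  have hval : ∫ x, cellF v n M x ∂(stdGaussian E) =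
      z⁻¹ * (z ^ 2 - 2 * ∫ x in vcell w i0, wid w' x ∂(stdGaussian E)) := by
    have e1 : ∫ x, cellF v n M x ∂(stdGaussian E) =
        ∫ x in vcell w i0, (⟪n, x⟫ - 2 * M x) ∂(stdGaussian E) := by
      simp only [cellF]
      rw [integral_indicator hmCt]
      exact (setIntegral_congr_set hae).symm
    rw [e1]
    have i1 : Integrable (fun x : E => ⟪n, x⟫) (stdGaussian E) := integrable_inner_std n
    have i2 : Integrable (fun x => 2 * M x) (stdGaussian E) := hMint.const_mul 2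
    rw [integral_sub i1.integrableOn i2.integrableOn, integral_const_mul]
    simp only [hMdef]
    rw [integral_const_mul]
    have e2 : ∫ x in vcell w i0, ⟪n, x⟫ ∂(stdGaussian E) = z⁻¹ * z ^ 2 := by
      rw [← inner_mom, hfix, hn, inner_smul_left, hzz]
      simp
    rw [e2]
    ring
  rw [hval] at hkey
  have h9 := inv_pos.2 hz0
  have h10 : z ^ 2 - 2 * ∫ x in vcell w i0, wid w' x ∂(stdGaussian E) ≤ 0 := by
    by_contra hc'
    push Not at hc'
    have := mul_pos h9 hc'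
    linarith
  linarith


/-- One cell can be removed from any partition with many cells. -/
theorem step_main1 [LinearOrder ι] (hcard : 32 ≤ Fintype.card ι) {A : ι → Set E} (hA : IsPart A) :
    ∃ i0 : ι, ∃ B : {l // l ≠ i0} → Set E, IsPart B ∧ Fval A ≤ Fval B := by
  have hne : Nonempty ι := by
    apply Fintype.card_pos_iff.1
    omega
  have hcard2 : ∀ i0 : ι, Fintype.card {l // l ≠ i0} = Fintype.card ι - 1 := card_ne ι
  have hne2 : ∀ i0 : ι, Nonempty {l // l ≠ i0} := by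
    intro i0
    apply Fintype.card_pos_iff.1
    rw [hcard2]
    omega
  by_cases hpos : 0 < Fval A
  · obtain ⟨w, hfix, hle⟩ := exists_fixed hA hpos
    have hFw : Fval (vcell w) = ∑ i, ‖w i‖ ^ 2 := by
      simp only [Fval]
      apply Finset.sum_congr rfl
      intro i _
      rw [hfix]
    by_cases hobt : ∀ i j, i ≠ j → ⟪w i, w j⟫ < 0
    · obtain ⟨i0, -, hi0⟩ := Finset.exists_min_image Finset.univ (fun l => ‖w l‖)
        Finset.univ_nonempty
      have := hne2 i0
      have hN : 31 ≤ Fintype.card {l // l ≠ i0} := by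
        rw [hcard2]
        omega
      have hkey := delete_ineq1 (w := w) (i0 := i0) hfix hobt (fun j => hi0 j (Finset.mem_univ j)) hN
      obtain ⟨B, hB, hF⟩ := step_delete hfix hkey
      exact ⟨i0, B, hB, by linarith⟩
    · push Not at hobt
      obtain ⟨i, j, hij, hacute⟩ := hobt
      have hP := isPart_vcell w
      have hacute' : 0 ≤ ⟪mom (vcell w i), mom (vcell w j)⟫ := by
        rw [hfix, hfix]; exact hacute
      obtain ⟨B, hB, hF⟩ := step_merge hP hij hacute'
      exact ⟨j, B, hB, by linarith⟩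
  · obtain ⟨i0⟩ := hne
    have := hne2 i0
    refine ⟨i0, vcell fun _ => 0, isPart_vcell _, ?_⟩
    have h1 : 0 ≤ Fval (vcell (fun _ : {l // l ≠ i0} => (0 : E))) :=
      Finset.sum_nonneg fun i _ => by positivity
    linarith

/-- Any partition with at least `31` cells is dominated by one with exactly `31` cells. -/
theorem main_reduction1 {k : ℕ} (hk : 31 ≤ k) {A : Fin k → Set E} (hA : IsPart A) :
    ∃ A' : Fin 31 → Set E, IsPart A' ∧ Fval A ≤ Fval A' := by
  induction k, hk using Nat.le_induction with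
  | base => exact ⟨A, hA, le_rfl⟩
  | succ k hk ih =>
    obtain ⟨i0, B, hB, hF⟩ := step_main1 (ι := Fin (k + 1)) (by simp; omega) hA
    have hc : Fintype.card {l // l ≠ i0} = k := by
      rw [card_ne]
      simp
    set e : Fin k ≃ {l // l ≠ i0} := (Fintype.equivFinOfCardEq hc).symm
    obtain ⟨hB', hF'⟩ := isPart_reindex e hB
    obtain ⟨A', hA', hle⟩ := ih hB'
    exact ⟨A', hA', by linarith⟩

end Vale.Agent.P226h6
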