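import Vale.Agent.P226h6.Grid
import Vale.Agent.P226h6.Stage1
import Vale.Agent.P226h6.Overhead

open MeasureTheory ProbabilityTheory Real Set Filter Topology
open scoped RealInnerProductSpace ENNReal NNReal

namespace Vale.Agent.P226h6

open Vale.Agent.P226h14

theorem P2_checks : ∀ k ∈ List.range 121, ChkS 10 418181818181 P2T k := by decide +kernel

theorem P2_last : P2T.getD 121 0 ≤ 0 ∧ Rho 121 ≤ 418181818181 ∧
    ((D : ℤ) - (418181818181 : ℕ)) * D ≤ P2T.getD 0 0 := by decide +kernel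

variable {E : Type*} [NormedAddCommGroup E] [InnerProductSpace ℝ E] [FiniteDimensional ℝ E]
  [MeasurableSpace E] [BorelSpace E]
variable {ι : Type*} [Fintype ι]

/-- the estimate with the sharper constant -/
theorem key_TU2 [Nonempty ι] (v : ι → E) (a : ι → ℝ)
    (ha0 : ∀ j, 0 ≤ a j) (ha1 : ∀ j, a j < 1) (hsum : ∑ j, a j = 1)
    (hneg : ∀ j l, j ≠ l → ⟪v j, v l⟫ ≤ 0)
    (hbal : ∑ j, (1 + a j) • v j = 0)
    (hvar : ∀ j, 1 - a j ≤ (1 + a j) * ‖v j‖ ^ 2) (hN : 10 ≤ Fintype.card ι) :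
    ∫ x, (Tf (wid v x) - ((418181818181 : ℕ) / (D : ℝ)) * ph (wid v x)) ∂(stdGaussian E) ≤ 0 :=
  key_grid v a ha0 ha1 hsum hneg hbal hvar 10 418181818181 121 P2T (by norm_num) hN
    (by norm_num [D]) (fun k hk => chkE_all k (List.mem_range.2 (by omega)))
    (fun k hk => P2_checks k (List.mem_range.2 hk)) P2_last.2.2 P2_last.1 P2_last.2.1

/-- the deletion of one cell, keeping the squares of the moments of the pieces -/
lemma step_delete2 [LinearOrder ι] {w : ι → E} {i0 : ι} [Nonempty {l // l ≠ i0}]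
    (hfix : ∀ i, mom (vcell w i) = w i)
    (hkey : (1 - 1 / (Fintype.card {l // l ≠ i0} : ℝ)) * ‖w i0‖ ^ 2 ≤
      2 * ∫ x in vcell w i0, wid (fun l : {l // l ≠ i0} => w l.1) x ∂(stdGaussian E))
    [Nonempty ι] :
    ∃ B' : {l // l ≠ i0} → Set E, IsPart B' ∧ Fval (vcell w) ≤ Fval B' := by
  classical
  set w' : {l // l ≠ i0} → E := fun l => w l.1 with hw'
  set B := vcell w with hB
  have hBP : IsPart B := isPart_vcell w
  set C : {l // l ≠ i0} → Set E := fun l => B i0 ∩ vcell w' l with hC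
  have hCm : ∀ l, MeasurableSet (C l) := fun l => (hBP.1 i0).inter (measurableSet_vcell w' l)
  have hCd : Pairwise (Function.onFun Disjoint C) := by
    intro l m hlm
    exact (disjoint_vcell w' hlm).mono inter_subset_right inter_subset_right
  have hCu : ⋃ l, C l = B i0 := by
    apply Set.Subset.antisymm
    · exact iUnion_subset fun l => inter_subset_left
    · intro x hx
      obtain ⟨l, hl⟩ := exists_mem_vcell w' x
      exact mem_iUnion.2 ⟨l, hx, hl⟩
  obtain ⟨hP, hF⟩ := reassign hBP i0 hCm hCd hCu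
  refine ⟨_, hP, ?_⟩
  rw [hF]
  have hsum : ∑ l : {l // l ≠ i0}, ⟪mom (B l.1), mom (C l)⟫ =
      ∫ x in B i0, wid w' x ∂(stdGaussian E) := by
    have h1 := hasSum_integral_iUnion hCm hCd (f := wid w') (μ := stdGaussian E)
      (integrable_wid w').integrableOn
    rw [hCu] at h1
    rw [← (hasSum_fintype _).unique h1]
    apply Finset.sum_congr rfl
    intro l _
    rw [hfix, inner_mom]
    apply setIntegral_congr_fun (hCm l)
    intro x hx
    exact (wid_eq_of_mem hx.2).symm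
  have hsumC : ∑ l : {l // l ≠ i0}, mom (C l) = w i0 := by
    have h1 := hasSum_integral_iUnion hCm hCd (f := fun x : E => x) (μ := stdGaussian E)
      integrable_id_std.integrableOn
    rw [hCu] at h1
    have h2 := (hasSum_fintype _).unique h1
    simp only [mom]
    rw [h2]
    exact hfix i0
  set N : ℝ := (Fintype.card {l // l ≠ i0} : ℝ) with hN
  have hN0 : 0 < N := by
    rw [hN]
    exact_mod_cast Fintype.card_pos
  have hcs : ‖w i0‖ ^ 2 / N ≤ ∑ l : {l // l ≠ i0}, ‖mom (C l)‖ ^ 2 := by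
    rw [div_le_iff₀ hN0]
    have h1 : ‖w i0‖ ≤ ∑ l : {l // l ≠ i0}, ‖mom (C l)‖ := by
      rw [← hsumC]
      exact norm_sum_le _ _
    have h2 : ‖w i0‖ ^ 2 ≤ (∑ l : {l // l ≠ i0}, ‖mom (C l)‖) ^ 2 :=
      pow_le_pow_left₀ (norm_nonneg _) h1 2
    have h3 := sq_sum_le_card_mul_sum_sq (s := (Finset.univ : Finset {l // l ≠ i0}))
      (f := fun l => ‖mom (C l)‖)
    rw [Finset.card_univ] at h3
    have h4 : (∑ l : {l // l ≠ i0}, ‖mom (C l)‖) ^ 2 ≤ N * ∑ l : {l // l ≠ i0}, ‖mom (C l)‖ ^ 2 := h3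
    linarith
  have h2 : ∑ l : {l // l ≠ i0}, (2 * ⟪mom (B l.1), mom (C l)⟫ + ‖mom (C l)‖ ^ 2) =
      2 * ∫ x in B i0, wid w' x ∂(stdGaussian E) + ∑ l : {l // l ≠ i0}, ‖mom (C l)‖ ^ 2 := by
    rw [Finset.sum_add_distrib, ← Finset.mul_sum, hsum]
  rw [h2]
  have h3 : mom (B i0) = w i0 := hfix i0
  rw [h3]
  have h4 : (1 - 1 / N) * ‖w i0‖ ^ 2 = ‖w i0‖ ^ 2 - ‖w i0‖ ^ 2 / N := by
    field_simp
  rw [h4] at hkey
  linarith

/-- The key inequality in terms of the fixed point, using the flux identity. -/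
theorem delete_ineq2 [LinearOrder ι] {w : ι → E} {i0 : ι} [Nonempty {l // l ≠ i0}] [Nonempty ι]
    (hfix : ∀ i, mom (vcell w i) = w i)
    (hobt : ∀ i j, i ≠ j → ⟪w i, w j⟫ < 0)
    (hmin : ∀ j, ‖w i0‖ ≤ ‖w j‖)
    (hN : 10 ≤ Fintype.card {l // l ≠ i0}) :
    (1 - 1 / (Fintype.card {l // l ≠ i0} : ℝ)) * ‖w i0‖ ^ 2 ≤
      2 * ∫ x in vcell w i0, wid (fun l : {l // l ≠ i0} => w l.1) x ∂(stdGaussian E) := by
  classical
  set ι' := {l // l ≠ i0} with hι'
  set w' : ι' → E := fun l => w l.1 with hw'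
  set z : ℝ := ‖w i0‖ with hz
  have hz0 : 0 < z := by
    rw [hz, norm_pos_iff]
    intro h0
    obtain ⟨l⟩ := (inferInstance : Nonempty ι')
    have := hobt l.1 i0 l.2
    rw [h0, inner_zero_right] at this
    exact lt_irrefl _ this
  have hzz : ⟪w i0, w i0⟫ = z ^ 2 := real_inner_self_eq_norm_sq _
  have hz2 : z ^ 2 ≠ 0 := by positivity
  -- the balance
  have hsumw : w i0 + ∑ l : ι', w l.1 = 0 := by
    have h1 := sum_mom (isPart_vcell w)
    simp_rw [hfix] at h1
    rw [Fintype.sum_eq_add_sum_subtype_ne w i0] at h1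
    exact h1
  set a : ι' → ℝ := fun l => -⟪w l.1, w i0⟫ / z ^ 2 with ha_def
  have hpair : ∀ l : ι', ⟪w l.1, w i0⟫ = -(a l * z ^ 2) := by
    intro l
    simp only [ha_def]
    field_simp
  have ha_pos : ∀ l, 0 < a l := by
    intro l
    apply div_pos _ (by positivity)
    have := hobt l.1 i0 l.2
    linarith
  have ha_nonneg : ∀ l, 0 ≤ a l := fun l => (ha_pos l).le
  have hsum : ∑ l, a l = 1 := by
    simp only [ha_def]
    rw [← Finset.sum_div, Finset.sum_neg_distrib, div_eq_iff hz2, one_mul]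
    have h1 : ∑ l : ι', ⟪w l.1, w i0⟫ = ⟪∑ l : ι', w l.1, w i0⟫ := by
      rw [sum_inner]
    have h2 : ∑ l : ι', w l.1 = - w i0 := by
      rw [eq_neg_iff_add_eq_zero, add_comm]
      exact hsumw
    rw [h1, h2, inner_neg_left, hzz]
    ring
  set v : ι' → E := fun l => ((1 + a l) * z)⁻¹ • (w l.1 + a l • w i0) with hv
  set n : E := z⁻¹ • w i0 with hn
  have hc_pos : ∀ l, 0 < (1 + a l) * z := fun l => by
    have := ha_pos l
    positivity
  have hn1 : ‖n‖ = 1 := by
    rw [hn, norm_smul, norm_inv, norm_norm, ← hz]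
    field_simp
  have hinner_base : ∀ (l : ι') (y : E),
      ⟪w l.1 + a l • w i0, y⟫ = ⟪w l.1, y⟫ + a l * ⟪w i0, y⟫ := by
    intro l y
    rw [inner_add_left, inner_smul_left]
    simp
  have hvx : ∀ l y, ⟪v l, y⟫ = ((1 + a l) * z)⁻¹ * (⟪w l.1, y⟫ + a l * ⟪w i0, y⟫) := by
    intro l y
    simp only [hv]
    rw [inner_smul_left, hinner_base]
    simp
  have hnx : ∀ y, ⟪n, y⟫ = z⁻¹ * ⟪w i0, y⟫ := by
    intro y
    rw [hn, inner_smul_left]
    simp
  have horth : ∀ j, ⟪v j, n⟫ = 0 := by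
    intro j
    have hjn : ⟪w j.1, n⟫ = z⁻¹ * ⟪w j.1, w i0⟫ := by
      rw [hn, inner_smul_right]
    have hin : ⟪w i0, n⟫ = z⁻¹ * z ^ 2 := by
      rw [hn, inner_smul_right, hzz]
    rw [hvx, hjn, hin, hpair]
    ring
  -- the Gram computation
  have hgram : ∀ j l : ι', ⟪w j.1 + a j • w i0, w l.1 + a l • w i0⟫ =
      ⟪w j.1, w l.1⟫ - a j * a l * z ^ 2 := by
    intro j l
    rw [inner_add_left, inner_add_right, inner_add_right, inner_smul_left, inner_smul_right,
      inner_smul_right, inner_smul_left, hpair j, real_inner_comm (w l.1) (w i0), hpair l, hzz]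
    simp
    ring
  have hneg : ∀ j l : ι', j ≠ l → ⟪v j, v l⟫ ≤ 0 := by
    intro j l hjl
    simp only [hv]
    rw [inner_smul_left, inner_smul_right, hgram]
    have hne : j.1 ≠ l.1 := fun h => hjl (Subtype.ext h)
    have h1 := hobt j.1 l.1 hne
    have h2 : 0 ≤ a j * a l * z ^ 2 := by
      have := ha_pos j
      have := ha_pos l
      positivity
    have h3 : ⟪w j.1, w l.1⟫ - a j * a l * z ^ 2 ≤ 0 := by linarith
    have h4 : 0 ≤ ((1 + a j) * z)⁻¹ := (inv_pos.2 (hc_pos j)).le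
    have h5 : 0 ≤ ((1 + a l) * z)⁻¹ := (inv_pos.2 (hc_pos l)).le
    have h6 := mul_nonpos_of_nonneg_of_nonpos h5 h3
    simpa using mul_nonpos_of_nonneg_of_nonpos h4 h6
  have hbal : ∑ j, (1 + a j) • v j = 0 := by
    have h1 : ∀ j, (1 + a j) • v j = z⁻¹ • (w j.1 + a j • w i0) := by
      intro j
      simp only [hv]
      rw [smul_smul]
      congr 1
      have := ha_pos j
      field_simp
    simp_rw [h1]
    rw [← Finset.smul_sum, Finset.sum_add_distrib, ← Finset.sum_smul, hsum, one_smul]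
    have h2 : ∑ l : ι', w l.1 = - w i0 := by
      rw [eq_neg_iff_add_eq_zero, add_comm]
      exact hsumw
    rw [h2]
    simp
  have hvar : ∀ j, 1 - a j ≤ (1 + a j) * ‖v j‖ ^ 2 := by
    intro j
    have h1 : ‖v j‖ ^ 2 = ((1 + a j) * z)⁻¹ ^ 2 * (‖w j.1‖ ^ 2 - a j ^ 2 * z ^ 2) := by
      simp only [hv]
      rw [norm_smul, mul_pow, norm_inv, Real.norm_eq_abs, abs_of_pos (hc_pos j),
        ← real_inner_self_eq_norm_sq (w j.1 + a j • w i0), hgram, real_inner_self_eq_norm_sq]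
      ring
    rw [h1]
    have h2 : z ^ 2 ≤ ‖w j.1‖ ^ 2 := by
      have := hmin j.1
      exact pow_le_pow_left₀ hz0.le this 2
    have h3 := ha_pos j
    have h4 : (1 + a j) * ((1 + a j) * z)⁻¹ ^ 2 * (z ^ 2 - a j ^ 2 * z ^ 2) = 1 - a j := by
      field_simp
      ring
    have h5 : (1 + a j) * ((1 + a j) * z)⁻¹ ^ 2 * (z ^ 2 - a j ^ 2 * z ^ 2) ≤
        (1 + a j) * ((1 + a j) * z)⁻¹ ^ 2 * (‖w j.1‖ ^ 2 - a j ^ 2 * z ^ 2) := by
      apply mul_le_mul_of_nonneg_left _ (by positivity)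
      linarith
    rw [h4] at h5
    linarith [h5]
  set M : E → ℝ := fun x => z⁻¹ * wid w' x with hMdef
  have hMint : Integrable M (stdGaussian E) := (integrable_wid w').const_mul _
  have hM : ∀ x j, (1 + a j) * ⟪v j, x⟫ - a j * ⟪n, x⟫ ≤ M x := by
    intro x j
    have h1 : (1 + a j) * ⟪v j, x⟫ - a j * ⟪n, x⟫ = z⁻¹ * ⟪w j.1, x⟫ := by
      rw [hvx, hnx]
      have := ha_pos j
      field_simp
      ring
    rw [h1]
    apply mul_le_mul_of_nonneg_left (le_wid w' x j) (inv_pos.2 hz0).le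
  have ha_lt : ∀ l, a l < 1 := by
    intro l
    obtain ⟨l2, hl2⟩ : ∃ l2 : ι', l2 ≠ l := by
      apply Fintype.exists_ne_of_one_lt_card
      have hN' : 10 ≤ Fintype.card ι' := hN
      omega
    have h1 : a l + a l2 ≤ ∑ m, a m := by
      have h2 := Finset.sum_le_sum_of_subset_of_nonneg (s := {l, l2}) (t := Finset.univ) (f := a)
        (Finset.subset_univ _) (fun m _ _ => ha_nonneg m)
      rwa [Finset.sum_pair hl2.symm] at h2
    have := ha_pos l2
    linarith
  have hneg2 : ∀ j l : ι', j ≠ l → ⟪v j, v l⟫ < 0 := by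
    intro j l hjl
    simp only [hv]
    rw [inner_smul_left, inner_smul_right, hgram]
    have hne : j.1 ≠ l.1 := fun h => hjl (Subtype.ext h)
    have h1 := hobt j.1 l.1 hne
    have h2 : 0 ≤ a j * a l * z ^ 2 := by
      have := ha_pos j
      have := ha_pos l
      positivity
    have h3 : ⟪w j.1, w l.1⟫ - a j * a l * z ^ 2 < 0 := by linarith
    have h4 : 0 < ((1 + a j) * z)⁻¹ := inv_pos.2 (hc_pos j)
    have h5 : 0 < ((1 + a l) * z)⁻¹ := inv_pos.2 (hc_pos l)
    have h6 := mul_neg_of_pos_of_neg h5 h3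
    simpa using mul_neg_of_pos_of_neg h4 h6
  -- identify the cell
  set Ct : Set E := {y | ∀ l, ⟪v l, y⟫ ≤ ⟪n, y⟫} with hCt
  have hCtiff : ∀ y, y ∈ Ct ↔ ∀ l : ι', ⟪w l.1, y⟫ ≤ ⟪w i0, y⟫ := by
    intro y
    have h1 : ∀ l : ι', ⟪n, y⟫ - ⟪v l, y⟫ = ((1 + a l) * z)⁻¹ * (⟪w i0, y⟫ - ⟪w l.1, y⟫) := by
      intro l
      rw [hvx, hnx]
      have := ha_pos l
      field_simp
      ring
    constructor
    · intro hy l
      have h2 : 0 ≤ ⟪n, y⟫ - ⟪v l, y⟫ := by linarith [hy l]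
      rw [h1] at h2
      have h3 := inv_pos.2 (hc_pos l)
      have h4 := (mul_nonneg_iff_of_pos_left h3).1 h2
      linarith
    · intro hy l
      have h2 := h1 l
      have h3 := inv_pos.2 (hc_pos l)
      have h4 : 0 ≤ ⟪w i0, y⟫ - ⟪w l.1, y⟫ := by linarith [hy l]
      have h5 := mul_nonneg h3.le h4
      linarith
  have hmCt : MeasurableSet Ct := by
    have : Ct = ⋂ l, {y | ⟪v l, y⟫ ≤ ⟪n, y⟫} := by
      ext x; simp [hCt]
    rw [this]
    exact MeasurableSet.iInter fun l =>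
      measurableSet_le (measurable_inner_left _) (measurable_inner_left _)
  have hsub1 : vcell w i0 ⊆ Ct := by
    intro y hy
    rw [hCtiff]
    intro l
    exact hy.1 l.1
  have hsub2 : Ct \ vcell w i0 ⊆ ⋃ j : ι', {y | ⟪w j.1 - w i0, y⟫ = 0} := by
    intro y hy
    have h1 := (hCtiff y).1 hy.1
    have h2 : ¬ y ∈ vcell w i0 := hy.2
    have hfirst : ∀ j, ⟪w j, y⟫ ≤ ⟪w i0, y⟫ := by
      intro j
      by_cases hj : j = i0
      · rw [hj]
      · exact h1 ⟨j, hj⟩
    have h3 : ¬ ∀ j, j < i0 → ⟪w j, y⟫ < ⟪w i0, y⟫ := fun hh' => h2 ⟨hfirst, hh'⟩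
    push Not at h3
    obtain ⟨j, hj, hj2⟩ := h3
    apply mem_iUnion.2
    refine ⟨⟨j, hj.ne⟩, ?_⟩
    have h4 := hfirst j
    change ⟪w j - w i0, y⟫ = 0
    rw [inner_sub_left]
    linarith
  have hnull : stdGaussian E (Ct \ vcell w i0) = 0 := by
    apply measure_mono_null hsub2
    apply measure_iUnion_null
    intro j
    apply hyperplane_null
    intro h0
    have h1 : w j.1 = w i0 := sub_eq_zero.1 h0
    have h2 := hobt j.1 i0 j.2
    rw [h1, hzz] at h2
    have : 0 < z ^ 2 := by positivity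
    linarith
  have hae : vcell w i0 =ᵐ[stdGaussian E] Ct := by
    rw [ae_eq_set]
    refine ⟨?_, hnull⟩
    rw [sdiff_eq_empty.2 hsub1]
    simp
  have hwn : w i0 = z • n := by
    rw [hn, smul_smul]
    field_simp
    simp
  have hmomC : ∀ b : E, ∫ y in Ct, ⟪b, y⟫ ∂(stdGaussian E) = ⟪b, w i0⟫ := by
    intro b
    rw [← setIntegral_congr_set hae, ← inner_mom, hfix]
  have hperp : ∀ b : E, ⟪b, n⟫ = 0 →
      ∫ y in {y | ∀ l, ⟪v l, y⟫ ≤ ⟪n, y⟫}, ⟪b, y⟫ ∂(stdGaussian E) = 0 := by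
    intro b hb
    rw [hmomC, hwn, inner_smul_right, hb, mul_zero]
  have hgap := gap_bound v a n M hn1 horth ha_nonneg hsum hneg2 hbal hperp hMint hM
  set H : ℝ := ∫ x in vcell w i0, wid w' x ∂(stdGaussian E) with hH
  have hval : ∫ x, gapF v n M x ∂(stdGaussian E) = z⁻¹ * (z ^ 2 - H) := by
    have e1 : ∫ x, gapF v n M x ∂(stdGaussian E) =
        ∫ x in vcell w i0, (⟪n, x⟫ - M x) ∂(stdGaussian E) := by
      simp only [gapF]
      rw [integral_indicator hmCt]
      exact (setIntegral_congr_set hae).symm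
    rw [e1]
    have i1 : Integrable (fun x : E => ⟪n, x⟫) (stdGaussian E) := integrable_inner_std n
    rw [integral_sub i1.integrableOn hMint.integrableOn]
    simp only [hMdef]
    rw [integral_const_mul]
    have e2 : ∫ x in vcell w i0, ⟪n, x⟫ ∂(stdGaussian E) = z⁻¹ * z ^ 2 := by
      rw [← inner_mom, hfix, hn, inner_smul_left, hzz]
      simp
    rw [e2]
    ring
  have hZ : ∫ x, ph (wid v x) ∂(stdGaussian E) = z := by
    rw [← cell_moment_axis v hn1 horth, hmomC, hn, inner_smul_left, hzz]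
    simp only [conj_trivial]
    field_simp
  have hTU := key_TU2 v a ha_nonneg ha_lt hsum hneg hbal hvar (E := E) hN
  have hUU0 := wid_nonneg v a ha_nonneg hbal
  have hTint : Integrable (fun x => Tf (wid v x)) (stdGaussian E) := by
    apply Integrable.of_bound (continuous_Tf.measurable.comp (measurable_wid v)).aestronglyMeasurable
      (ph 0)
    apply Eventually.of_forall
    intro x
    rw [Real.norm_eq_abs, Function.comp_apply, abs_of_nonneg (Tf_nonneg _)]
    exact (Tf_le_ph (hUU0 x)).trans (ph_le_ph_zero _)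
  rw [integral_sub hTint ((integrable_ph_wid v).const_mul _), integral_const_mul, hZ] at hTU
  set T0 : ℝ := ∫ x, Tf (wid v x) ∂(stdGaussian E) with hT0
  set c0 : ℝ := ((418181818181 : ℕ) : ℝ) / (D : ℝ) with hc0
  have hc0v : c0 ≤ 23 / 55 := by
    simp only [hc0, D]
    norm_num
  rw [hval, hZ] at hgap
  set NN : ℝ := (Fintype.card ι' : ℝ) with hNN
  have hNN10 : (10 : ℝ) ≤ NN := by
    have : 10 ≤ Fintype.card ι' := hN
    rw [hNN]
    exact_mod_cast this
  have hNN0 : 0 < NN := by linarith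
  -- the arithmetic
  have hβ : 0 ≤ 1 + 1 / NN := by positivity
  have h1 : z⁻¹ * (z ^ 2 - H) ≤ (1 + 1 / NN) * (c0 * z) + z / NN * (1 - 1 / NN) := by
    have : (1 + 1 / NN) * T0 ≤ (1 + 1 / NN) * (c0 * z) :=
      mul_le_mul_of_nonneg_left (by linarith) hβ
    linarith
  have h2 : z ^ 2 - H ≤ z * ((1 + 1 / NN) * (c0 * z) + z / NN * (1 - 1 / NN)) := by
    have h3 := mul_le_mul_of_nonneg_left h1 hz0.le
    have e : z * (z⁻¹ * (z ^ 2 - H)) = z ^ 2 - H := by
      field_simp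
    rw [e] at h3
    exact h3
  have h3 : (1 + 1 / NN) * (23 / 55) * 2 + 2 / NN * (1 - 1 / NN) ≤ 1 + 1 / NN := by
    have h4 : (1 + 1 / NN) * (23 / 55) * 2 + 2 / NN * (1 - 1 / NN) - (1 + 1 / NN) =
        -(9 * NN ^ 2 - 101 * NN + 110) / (55 * NN ^ 2) := by
      field_simp
      ring
    have h5 : 0 ≤ 9 * NN ^ 2 - 101 * NN + 110 := by nlinarith
    have h6 : -(9 * NN ^ 2 - 101 * NN + 110) / (55 * NN ^ 2) ≤ 0 := by
      apply div_nonpos_of_nonpos_of_nonneg (by linarith) (by positivity)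
    linarith
  have hz2 : 0 ≤ z ^ 2 := by positivity
  have h4 : z * ((1 + 1 / NN) * (c0 * z) + z / NN * (1 - 1 / NN)) =
      z ^ 2 * ((1 + 1 / NN) * c0 + 1 / NN * (1 - 1 / NN)) := by
    field_simp
  rw [h4] at h2
  have h5 : (1 + 1 / NN) * c0 ≤ (1 + 1 / NN) * (23 / 55) := mul_le_mul_of_nonneg_left hc0v hβ
  have h6 : z ^ 2 * (2 * ((1 + 1 / NN) * c0 + 1 / NN * (1 - 1 / NN))) ≤ z ^ 2 * (1 + 1 / NN) := by
    apply mul_le_mul_of_nonneg_left _ hz2
    have e : 2 / NN * (1 - 1 / NN) = 2 * (1 / NN * (1 - 1 / NN)) := by ring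
    rw [e] at h3
    linarith
  have e7 : (1 - 1 / NN) * z ^ 2 = 2 * z ^ 2 - z ^ 2 * (1 + 1 / NN) := by ring
  rw [e7]
  nlinarith

/-- One cell can be removed from any partition with many cells. -/
theorem step_main2 [LinearOrder ι] (hcard : 11 ≤ Fintype.card ι) {A : ι → Set E} (hA : IsPart A) :
    ∃ i0 : ι, ∃ B : {l // l ≠ i0} → Set E, IsPart B ∧ Fval A ≤ Fval B := by
  have hne : Nonempty ι := by
    apply Fintype.card_pos_iff.1
    omega
  have hcard2 : ∀ i0 : ι, Fintype.card {l // l ≠ i0} = Fintype.card ι - 1 := card_ne ι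
  have hne2 : ∀ i0 : ι, Nonempty {l // l ≠ i0} := by
    intro i0
    apply Fintype.card_pos_iff.1
    rw [hcard2]
    omega
  by_cases hpos : 0 < Fval A
  · obtain ⟨w, hfix, hle⟩ := exists_fixed hA hpos
    have hFw : Fval (vcell w) = ∑ i, ‖w i‖ ^ 2 := by
      simp only [Fval]
      apply Finset.sum_congr rfl
      intro i _
      rw [hfix]
    by_cases hobt : ∀ i j, i ≠ j → ⟪w i, w j⟫ < 0
    · obtain ⟨i0, -, hi0⟩ := Finset.exists_min_image Finset.univ (fun l => ‖w l‖)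
        Finset.univ_nonempty
      have := hne2 i0
      have hN : 10 ≤ Fintype.card {l // l ≠ i0} := by
        rw [hcard2]
        omega
      have hkey := delete_ineq2 (w := w) (i0 := i0) hfix hobt (fun j => hi0 j (Finset.mem_univ j)) hN
      obtain ⟨B, hB, hF⟩ := step_delete2 hfix hkey
      exact ⟨i0, B, hB, by linarith⟩
    · push Not at hobt
      obtain ⟨i, j, hij, hacute⟩ := hobt
      have hP := isPart_vcell w
      have hacute' : 0 ≤ ⟪mom (vcell w i), mom (vcell w j)⟫ := by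
        rw [hfix, hfix]; exact hacute
      obtain ⟨B, hB, hF⟩ := step_merge hP hij hacute'
      exact ⟨j, B, hB, by linarith⟩
  · obtain ⟨i0⟩ := hne
    have := hne2 i0
    refine ⟨i0, vcell fun _ => 0, isPart_vcell _, ?_⟩
    have h1 : 0 ≤ Fval (vcell (fun _ : {l // l ≠ i0} => (0 : E))) :=
      Finset.sum_nonneg fun i _ => by positivity
    linarith

/-- Any partition with at least `10` cells is dominated by one with exactly `10` cells. -/
theorem main_reduction2 {k : ℕ} (hk : 10 ≤ k) {A : Fin k → Set E} (hA : IsPart A) :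
    ∃ A' : Fin 10 → Set E, IsPart A' ∧ Fval A ≤ Fval A' := by
  induction k, hk using Nat.le_induction with
  | base => exact ⟨A, hA, le_rfl⟩
  | succ k hk ih =>
    obtain ⟨i0, B, hB, hF⟩ := step_main2 (ι := Fin (k + 1)) (by simp; omega) hA
    have hc : Fintype.card {l // l ≠ i0} = k := by
      rw [card_ne]
      simp
    set e : Fin k ≃ {l // l ≠ i0} := (Fintype.equivFinOfCardEq hc).symm
    obtain ⟨hB', hF'⟩ := isPart_reindex e hB
    obtain ⟨A', hA', hle⟩ := ih hB'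
    exact ⟨A', hA', by linarith⟩

end Vale.Agent.P226h6
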