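import Vale.Agent.P226h6.TU

open MeasureTheory ProbabilityTheory Real Set Filter Topology
open scoped RealInnerProductSpace ENNReal NNReal

namespace Vale.Agent.P226h6

open Vale.Agent.P226h14

lemma integral_gauss (f : ℝ → ℝ) : ∫ r, f r ∂(gaussianReal 0 1) = ∫ r, ph r * f r := by
  have := setIntegral_gaussian (s := univ) MeasurableSet.univ f
  simpa using this

lemma ph_neg (u : ℝ) : ph (-u) = ph u := by
  unfold ph
  simp

/-- Gaussian integration by parts in one dimension for Lipschitz functions. -/
lemma ibp_1d {g D : ℝ → ℝ} {L B C : ℝ} (hL : ∀ r s, |g r - g s| ≤ L * |r - s|)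
    (hB : ∀ r, |g r| ≤ B) (hDm : Measurable D) (hDB : ∀ r, |D r| ≤ C)
    (hD : ∀ᵐ r ∂(gaussianReal 0 1), HasDerivAt g (D r) r) :
    ∫ r, r * g r ∂(gaussianReal 0 1) = ∫ r, D r ∂(gaussianReal 0 1) := by
  have hL0 : 0 ≤ L := by
    have h := hL 1 0
    have h2 : 0 ≤ |g 1 - g 0| := abs_nonneg _
    norm_num at h
    linarith
  have hgc : Continuous g := by
    have : LipschitzWith (Real.toNNReal L) g := by
      apply LipschitzWith.of_dist_le_mul
      intro r s
      rw [Real.dist_eq, Real.dist_eq, Real.coe_toNNReal _ hL0]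
      exact hL r s
    exact this.continuous
  have hDvol : ∀ᵐ r, HasDerivAt g (D r) r :=
    (gaussianReal_absolutelyContinuous' 0 (one_ne_zero)).ae_le hD
  set G : ℝ → ℝ := fun r => g r * ph r with hG
  set F : ℝ → ℝ := fun r => ph r * D r - ph r * (r * g r) with hF
  have hderiv : ∀ᵐ r, deriv G r = F r := by
    filter_upwards [hDvol] with r hr
    have h1 := hr.mul (hasDerivAt_ph r)
    have : deriv G r = D r * ph r + g r * (-(r * ph r)) := h1.deriv
    rw [this]
    simp only [hF]
    ring
  have hFint : Integrable F := by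
    have h1 : Integrable (fun r => ph r * D r) := by
      apply integrable_ph.mul_bdd (c := C) hDm.aestronglyMeasurable
      exact Eventually.of_forall fun r => by simpa using hDB r
    have h2 : Integrable (fun r => ph r * (r * g r)) := by
      have h3 : Integrable (fun r => (r * ph r) * g r) := by
        apply integrable_id_mul_ph.mul_bdd (c := B) hgc.aestronglyMeasurable
        exact Eventually.of_forall fun r => by simpa using hB r
      refine h3.congr (Eventually.of_forall fun r => ?_)
      simp only
      ring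
    exact h1.sub h2
  have hphc : Continuous ph := continuous_ph
  have hAC : ∀ a b : ℝ, AbsolutelyContinuousOnInterval G a b := by
    intro a b
    have h1 : AbsolutelyContinuousOnInterval g a b := by
      have : LipschitzOnWith (Real.toNNReal L) g (uIcc a b) := by
        apply LipschitzOnWith.of_dist_le_mul
        intro r _ s _
        rw [Real.dist_eq, Real.dist_eq, Real.coe_toNNReal _ hL0]
        exact hL r s
      exact this.absolutelyContinuousOnInterval
    have h2 : AbsolutelyContinuousOnInterval ph a b := by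
      have hd : ContDiff ℝ 1 ph := by
        unfold ph
        fun_prop
      exact (hd.contDiffOn).absolutelyContinuousOnInterval
    exact h1.mul h2
  have hval : ∀ a b : ℝ, ∫ r in a..b, F r = G b - G a := by
    intro a b
    have h1 := (hAC a b).integral_deriv_eq_sub
    rw [← h1]
    apply intervalIntegral.integral_congr_ae
    filter_upwards [hderiv] with r hr _
    exact hr.symm
  have hlim1 := intervalIntegral_tendsto_integral hFint
    (a := fun n : ℕ => -(n : ℝ)) (b := fun n : ℕ => (n : ℝ)) (l := atTop)
    (tendsto_neg_atTop_atBot.comp tendsto_natCast_atTop_atTop) tendsto_natCast_atTop_atTop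
  have hphn : Tendsto (fun n : ℕ => ph (n : ℝ)) atTop (𝓝 0) :=
    tendsto_ph_atTop.comp tendsto_natCast_atTop_atTop
  have hGlim : Tendsto (fun n : ℕ => G (n : ℝ) - G (-(n : ℝ))) atTop (𝓝 0) := by
    have hbd : ∀ n : ℕ, |G (n : ℝ) - G (-(n : ℝ))| ≤ 2 * B * ph (n : ℝ) := by
      intro n
      simp only [hG, ph_neg]
      have h1 := hB (n : ℝ)
      have h2 := hB (-(n : ℝ))
      have hp := ph_pos (n : ℝ)
      rw [← sub_mul, abs_mul, abs_of_pos hp]
      apply mul_le_mul_of_nonneg_right _ hp.le
      have h3 := abs_sub (g (n : ℝ)) (g (-(n : ℝ)))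
      linarith
    have h0 : Tendsto (fun n : ℕ => 2 * B * ph (n : ℝ)) atTop (𝓝 0) := by
      simpa using hphn.const_mul (2 * B)
    exact squeeze_zero_norm (fun n => by simpa using hbd n) h0
  have hzero : ∫ r, F r = 0 := by
    refine tendsto_nhds_unique hlim1 ?_
    refine hGlim.congr fun n => ?_
    rw [hval]
  rw [integral_gauss, integral_gauss]
  have h1 : Integrable (fun r => ph r * D r) := by
    apply integrable_ph.mul_bdd (c := C) hDm.aestronglyMeasurable
    exact Eventually.of_forall fun r => by simpa using hDB r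
  have h2 : Integrable (fun r => ph r * (r * g r)) := by
    have h3 : Integrable (fun r => (r * ph r) * g r) := by
      apply integrable_id_mul_ph.mul_bdd (c := B) hgc.aestronglyMeasurable
      exact Eventually.of_forall fun r => by simpa using hB r
    refine h3.congr (Eventually.of_forall fun r => ?_)
    simp only
    ring
  simp only [hF] at hzero
  rw [integral_sub h1 h2] at hzero
  linarith

lemma Qf_lip (a b : ℝ) : |Qf a - Qf b| ≤ ph 0 * |a - b| := by
  have h := Convex.norm_image_sub_le_of_norm_hasDerivWithin_le (f := Qf) (f' := fun u => -ph u)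
    (C := ph 0) (s := univ) (x := b) (y := a)
    (fun u _ => (hasDerivAt_Qf u).hasDerivWithinAt)
    (fun u _ => by
      rw [norm_neg, Real.norm_eq_abs, abs_of_pos (ph_pos u)]
      exact ph_le_ph_zero u) convex_univ (mem_univ _) (mem_univ _)
  simpa [Real.norm_eq_abs] using h

variable {E : Type*} [NormedAddCommGroup E] [InnerProductSpace ℝ E] [FiniteDimensional ℝ E]
  [MeasurableSpace E] [BorelSpace E]

lemma ae_slice (n : E) (hn : ‖n‖ = 1) {P : E → Prop} (h : ∀ᵐ y ∂(stdGaussian E), P y) :
    ∀ᵐ x ∂(stdGaussian E), ∀ᵐ r ∂(gaussianReal 0 1), P (slice n (x, r)) := by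
  have h1 : ∀ᵐ p ∂((stdGaussian E).prod (gaussianReal 0 1)), P (slice n p) := by
    rw [← map_slice n hn] at h
    exact ae_of_ae_map (measurable_slice n).aemeasurable h
  exact Measure.ae_ae_of_ae_prod h1

section stein

variable {ι : Type*} [Fintype ι] [LinearOrder ι] [Nonempty ι]

omit [Nonempty ι] in
/-- no ties almost surely -/
lemma ae_no_tie (v : ι → E) (hd : ∀ j l, j ≠ l → v j ≠ v l) :
    ∀ᵐ y ∂(stdGaussian E), ∀ j l, j ≠ l → ⟪v j, y⟫ ≠ ⟪v l, y⟫ := by
  rw [ae_all_iff]
  intro j
  rw [ae_all_iff]
  intro l
  by_cases hjl : j = l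
  · exact Eventually.of_forall fun y h => absurd hjl h
  · have h1 : stdGaussian E {y | ⟪v j - v l, y⟫ = 0} = 0 :=
      hyperplane_null (sub_ne_zero.2 (hd j l hjl))
    have h2 : ∀ᵐ y ∂(stdGaussian E), y ∉ {y | ⟪v j - v l, y⟫ = 0} :=
      measure_eq_zero_iff_ae_notMem.1 h1
    filter_upwards [h2] with y hy _ hc
    apply hy
    rw [inner_sub_left, hc, sub_self]

/-- the flux of the cell of one index -/
noncomputable def flux (v : ι → E) (j : ι) : ℝ := ∫ y in vcell v j, ph (wid v y) ∂(stdGaussian E)

omit [LinearOrder ι] [Nonempty ι] in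
lemma integrable_ph_wid (v : ι → E) : Integrable (fun y => ph (wid v y)) (stdGaussian E) := by
  apply Integrable.of_bound (continuous_ph.measurable.comp (measurable_wid v)).aestronglyMeasurable
    (ph 0)
  apply Eventually.of_forall
  intro x
  rw [Real.norm_eq_abs, Function.comp_apply, abs_of_pos (ph_pos _)]
  exact ph_le_ph_zero _

/-- Gaussian integration by parts for the tail of the maximum, unit direction. -/
theorem stein_unit (v : ι → E) (hd : ∀ j l, j ≠ l → v j ≠ v l) {b : E} (hb : ‖b‖ = 1) :
    ∫ y, ⟪b, y⟫ * Qf (wid v y) ∂(stdGaussian E) = -∑ j, ⟪v j, b⟫ * flux v j := by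
  classical
  have hbb : ⟪b, b⟫ = 1 := by
    rw [real_inner_self_eq_norm_sq, hb]
    norm_num
  have hph0 := ph_pos 0
  set S : ℝ := ∑ l, ‖v l‖ with hS
  have hS0 : 0 ≤ S := Finset.sum_nonneg fun l _ => norm_nonneg _
  have hvS : ∀ l, |⟪v l, b⟫| ≤ S := by
    intro l
    have h1 := abs_real_inner_le_norm (v l) b
    rw [hb, mul_one] at h1
    exact h1.trans (Finset.single_le_sum (f := fun l => ‖v l‖) (fun l _ => norm_nonneg _)
      (Finset.mem_univ l))
  have hUm := measurable_wid v
  set Ψ : E → ℝ := fun y => Qf (wid v y) with hΨ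
  have hΨm : Measurable Ψ := continuous_Qf.measurable.comp hUm
  have hΨb : ∀ y, |Ψ y| ≤ 1 := by
    intro y
    rw [abs_of_nonneg (Qf_nonneg _)]
    exact Qf_le_one _
  set D : E → ℝ := fun y => -(ph (wid v y) * ∑ j, (vcell v j).indicator (fun _ => ⟪v j, b⟫) y)
    with hD
  have hsumm : Measurable fun y => ∑ j, (vcell v j).indicator (fun _ => ⟪v j, b⟫) y := by
    apply Finset.measurable_fun_sum
    intro j _
    exact measurable_const.indicator (measurableSet_vcell v j)
  have hDm : Measurable D :=
    ((continuous_ph.measurable.comp hUm).mul hsumm).neg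
  have hcell : ∀ y j, y ∈ vcell v j →
      ∑ i, (vcell v i).indicator (fun _ => ⟪v i, b⟫) y = ⟪v j, b⟫ := by
    intro y j hy
    rw [Finset.sum_eq_single j]
    · exact indicator_of_mem hy _
    · intro i _ hi
      apply indicator_of_notMem
      intro hc
      exact Set.disjoint_left.1 (disjoint_vcell v hi) hc hy
    · intro hc
      exact absurd (Finset.mem_univ j) hc
  have hDb : ∀ y, |D y| ≤ ph 0 * S := by
    intro y
    obtain ⟨j, hj⟩ := exists_mem_vcell v y
    simp only [hD]
    rw [hcell y j hj, abs_neg, abs_mul, abs_of_pos (ph_pos _)]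
    exact mul_le_mul (ph_le_ph_zero _) (hvS j) (abs_nonneg _) hph0.le
  have hI1 : Integrable (fun y => ⟪b, y⟫ * Ψ y) (stdGaussian E) := by
    apply (integrable_inner_std b).mul_bdd (c := 1) hΨm.aestronglyMeasurable
    exact Eventually.of_forall fun y => by simpa using hΨb y
  have hI2 : Integrable D (stdGaussian E) :=
    Integrable.of_bound hDm.aestronglyMeasurable (ph 0 * S)
      (Eventually.of_forall fun y => by simpa using hDb y)
  have hibp : ∫ y, ⟪b, y⟫ * Ψ y ∂(stdGaussian E) = ∫ y, D y ∂(stdGaussian E) := by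
    rw [integral_slice b hb hI1, integral_slice b hb hI2]
    have hae := ae_slice b hb (ae_no_tie v hd)
    apply integral_congr_ae
    filter_upwards [hae] with x hx
    set g : ℝ → ℝ := fun r => Ψ (slice b (x, r)) with hg
    have hin : ∀ (l : ι) (r : ℝ), ⟪v l, slice b (x, r)⟫ = ⟪v l, x⟫ + (r - ⟪b, x⟫) * ⟪v l, b⟫ :=
      fun l r => inner_slice _ _ _ _
    have hwidlip : ∀ r s, wid v (slice b (x, r)) ≤ wid v (slice b (x, s)) + S * |r - s| := by
      intro r s
      apply wid_le
      intro l
      have h1 := le_wid v (slice b (x, s)) l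
      have e : ⟪v l, slice b (x, r)⟫ = ⟪v l, slice b (x, s)⟫ + (r - s) * ⟪v l, b⟫ := by
        rw [hin, hin]
        ring
      have h2 : (r - s) * ⟪v l, b⟫ ≤ S * |r - s| := by
        have h3 := le_abs_self ((r - s) * ⟪v l, b⟫)
        rw [abs_mul] at h3
        have h4 : |r - s| * |⟪v l, b⟫| ≤ |r - s| * S :=
          mul_le_mul_of_nonneg_left (hvS l) (abs_nonneg _)
        linarith
      rw [e]
      linarith
    have hgL : ∀ r s, |g r - g s| ≤ (ph 0 * S) * |r - s| := by
      intro r s
      have h1 := Qf_lip (wid v (slice b (x, r))) (wid v (slice b (x, s)))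
      refine h1.trans ?_
      rw [mul_assoc]
      apply mul_le_mul_of_nonneg_left _ hph0.le
      rw [abs_le]
      have h2 := hwidlip r s
      have h3 := hwidlip s r
      rw [abs_sub_comm s r] at h3
      constructor <;> linarith
    have hgB : ∀ r, |g r| ≤ 1 := fun r => hΨb _
    have hDxm : Measurable fun r => D (slice b (x, r)) :=
      hDm.comp (measurable_slice_right b x)
    have hDxb : ∀ r, |D (slice b (x, r))| ≤ ph 0 * S := fun r => hDb _
    have hderiv : ∀ᵐ r ∂(gaussianReal 0 1), HasDerivAt g (D (slice b (x, r))) r := by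
      filter_upwards [hx] with r hr
      set y := slice b (x, r) with hy
      obtain ⟨j, hj⟩ := exists_mem_vcell v y
      have hDy : D y = -(ph ⟪v j, y⟫ * ⟪v j, b⟫) := by
        simp only [hD]
        rw [hcell y j hj, wid_eq_of_mem hj]
      rw [hDy]
      have hstrict : ∀ l, l ≠ j → ⟪v l, y⟫ < ⟪v j, y⟫ := by
        intro l hl
        exact lt_of_le_of_ne (hj.1 l) (hr l j hl)
      set f : ℝ → ℝ := fun r' => ⟪v j, x⟫ + (r' - ⟪b, x⟫) * ⟪v j, b⟫ with hf
      have hfd : HasDerivAt f ⟪v j, b⟫ r := by
        have h1 := ((hasDerivAt_id r).sub_const ⟪b, x⟫).mul_const ⟪v j, b⟫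
        have h2 := h1.const_add ⟪v j, x⟫
        refine h2.congr_deriv ?_
        simp
      have hfy : f r = ⟪v j, y⟫ := (hin j r).symm
      have hcomp : HasDerivAt (fun r' => Qf (f r')) (-ph (f r) * ⟪v j, b⟫) r :=
        (hasDerivAt_Qf (f r)).comp r hfd
      have hev : ∀ᶠ r' in 𝓝 r, ∀ l, ⟪v l, slice b (x, r')⟫ ≤ f r' := by
        rw [eventually_all]
        intro l
        by_cases hl : l = j
        · subst hl
          exact Eventually.of_forall fun r' => (hin l r').le
        · have hc : Continuous fun r' : ℝ => f r' - ⟪v l, slice b (x, r')⟫ := by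
            have e : (fun r' : ℝ => f r' - ⟪v l, slice b (x, r')⟫) = fun r' =>
                ⟪v j, x⟫ + (r' - ⟪b, x⟫) * ⟪v j, b⟫ - (⟪v l, x⟫ + (r' - ⟪b, x⟫) * ⟪v l, b⟫) := by
              ext r'
              rw [hin l r']
            rw [e]
            fun_prop
          have h0 : 0 < f r - ⟪v l, slice b (x, r)⟫ := by
            rw [hfy]
            have := hstrict l hl
            linarith
          filter_upwards [hc.continuousAt.eventually (lt_mem_nhds h0)] with r' hr'
          linarith
      have heq : g =ᶠ[𝓝 r] fun r' => Qf (f r') := by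
        filter_upwards [hev] with r' hr'
        simp only [hg, hΨ]
        congr 1
        apply le_antisymm (wid_le v _ hr')
        have := le_wid v (slice b (x, r')) j
        rw [hin j r'] at this
        exact this
      have hfinal := hcomp.congr_of_eventuallyEq heq
      refine hfinal.congr_deriv ?_
      rw [hfy]
      ring
    have h1 := ibp_1d hgL hgB hDxm hDxb hderiv
    have e : ∀ r, ⟪b, slice b (x, r)⟫ * Ψ (slice b (x, r)) = r * g r := by
      intro r
      have : ⟪b, slice b (x, r)⟫ = r := by
        rw [inner_slice, hbb]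
        ring
      rw [this]
    simp_rw [e]
    exact h1
  rw [hibp]
  -- expand the right side
  have hDsum : ∀ y, D y = -∑ j, ⟪v j, b⟫ * (vcell v j).indicator (fun y => ph (wid v y)) y := by
    intro y
    obtain ⟨j, hj⟩ := exists_mem_vcell v y
    simp only [hD]
    rw [hcell y j hj, Finset.sum_eq_single j]
    · rw [indicator_of_mem hj]
      ring
    · intro i _ hi
      rw [indicator_of_notMem]
      · ring
      · intro hc
        exact Set.disjoint_left.1 (disjoint_vcell v hi) hc hj
    · intro hc
      exact absurd (Finset.mem_univ j) hc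
  simp_rw [hDsum]
  rw [integral_neg, integral_finsetSum]
  · congr 1
    apply Finset.sum_congr rfl
    intro j _
    rw [integral_const_mul, integral_indicator (measurableSet_vcell v j)]
    rfl
  · intro j _
    exact ((integrable_ph_wid v).indicator (measurableSet_vcell v j)).const_mul _

/-- Gaussian integration by parts for the tail of the maximum. -/
theorem stein_wid (v : ι → E) (hd : ∀ j l, j ≠ l → v j ≠ v l) (b : E) :
    ∫ y, ⟪b, y⟫ * Qf (wid v y) ∂(stdGaussian E) = -∑ j, ⟪v j, b⟫ * flux v j := by
  by_cases hb : b = 0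
  · subst hb
    simp
  · set s : ℝ := ‖b‖ with hs
    have hs0 : 0 < s := norm_pos_iff.2 hb
    set u : E := s⁻¹ • b with hu
    have hu1 : ‖u‖ = 1 := by
      rw [hu, norm_smul, norm_inv, norm_norm, ← hs]
      field_simp
    have hbu : b = s • u := by
      rw [hu, smul_smul]
      field_simp
      simp
    have h := stein_unit v hd hu1
    rw [hbu]
    simp only [inner_smul_left, inner_smul_right, conj_trivial, mul_assoc]
    rw [integral_const_mul, h, ← Finset.mul_sum]
    ring

end stein

end Vale.Agent.P226h6
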