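import Vale.Agent.P226h6.Mills

open MeasureTheory ProbabilityTheory Real Set Filter Topology
open scoped RealInnerProductSpace ENNReal NNReal

namespace Vale.Agent.P226h6

open Vale.Agent.P226h14

/-- Summation along a chain of growing sets. -/
lemma chain_integral {α : Type*} [MeasurableSpace α] (μ : Measure α) [IsProbabilityMeasure μ]
    {H : α → ℝ} (hH : Integrable H μ) (K : ℕ → Set α) (hm : ∀ i, MeasurableSet (K i))
    (hmono : ∀ i, K i ⊆ K (i + 1)) (m : ℕ) (Jb P g : ℕ → ℝ)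
    (hg0 : ∀ i < m, 0 < g i)
    (hgrow : ∀ i < m, g i * μ.real (K i) ≤ μ.real (K (i + 1)))
    (hbase : ∀ x ∈ K 0, H x ≤ P 0)
    (hstep : ∀ i < m, ∀ x ∈ K (i + 1), x ∉ K i → H x ≤ Jb i)
    (hP : ∀ i < m, Jb i ≤ P i)
    (hP2 : ∀ i < m, P i - Jb i ≤ (P (i + 1) - Jb i) * g i) :
    ∀ i ≤ m, ∫ x in K i, H x ∂μ ≤ P i * μ.real (K i) := by
  intro i
  induction i with
  | zero =>
    intro _
    have h1 : ∫ x in K 0, H x ∂μ ≤ ∫ _x in K 0, P 0 ∂μ :=
      setIntegral_mono_on hH.integrableOn (integrableOn_const (by simp)) (hm 0) hbase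
    rw [setIntegral_const] at h1
    simpa [mul_comm] using h1
  | succ i ih =>
    intro hi
    have hi' : i < m := hi
    have h1 := ih hi'.le
    have hsplit : ∫ x in K (i + 1), H x ∂μ =
        ∫ x in K i, H x ∂μ + ∫ x in K (i + 1) \ K i, H x ∂μ := by
      have := setIntegral_union (s := K i) (t := K (i + 1) \ K i) (f := H) (μ := μ)
        disjoint_sdiff_right ((hm (i + 1)).diff (hm i)) hH.integrableOn hH.integrableOn
      rw [union_sdiff_cancel (hmono i)] at this
      exact this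
    have h2 : ∫ x in K (i + 1) \ K i, H x ∂μ ≤ Jb i * μ.real (K (i + 1) \ K i) := by
      have h3 : ∫ x in K (i + 1) \ K i, H x ∂μ ≤ ∫ _x in K (i + 1) \ K i, Jb i ∂μ :=
        setIntegral_mono_on hH.integrableOn (integrableOn_const (by simp))
          ((hm (i + 1)).diff (hm i)) (fun x hx => hstep i hi' x hx.1 hx.2)
      rw [setIntegral_const] at h3
      simpa [mul_comm] using h3
    have hdiff : μ.real (K (i + 1) \ K i) = μ.real (K (i + 1)) - μ.real (K i) :=
      measureReal_sdiff (hmono i) (hm i)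
    rw [hsplit]
    rw [hdiff] at h2
    set a := μ.real (K i) with ha
    set b := μ.real (K (i + 1)) with hb
    have ha0 : 0 ≤ a := measureReal_nonneg
    have h4 := hgrow i hi'
    have h5 := hP i hi'
    have h6 := hP2 i hi'
    have h7 := hg0 i hi'
    have h8 : 0 ≤ P (i + 1) - Jb i := by
      by_contra hc
      push Not at hc
      have : (P (i + 1) - Jb i) * g i < 0 := mul_neg_of_neg_of_pos hc h7
      linarith
    have h9 : (P i - Jb i) * a ≤ (P (i + 1) - Jb i) * b := by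
      calc (P i - Jb i) * a ≤ ((P (i + 1) - Jb i) * g i) * a := mul_le_mul_of_nonneg_right h6 ha0
        _ = (P (i + 1) - Jb i) * (g i * a) := by ring
        _ ≤ (P (i + 1) - Jb i) * b := mul_le_mul_of_nonneg_left h4 h8
    nlinarith

/-- the conclusion of the summation -/
lemma chain_final {α : Type*} [MeasurableSpace α] (μ : Measure α) [IsProbabilityMeasure μ]
    {H : α → ℝ} (hH : Integrable H μ) (K : ℕ → Set α) (hm : ∀ i, MeasurableSet (K i))
    (hmono : ∀ i, K i ⊆ K (i + 1)) (m : ℕ) (Jb P g : ℕ → ℝ)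
    (hg0 : ∀ i < m, 0 < g i)
    (hgrow : ∀ i < m, g i * μ.real (K i) ≤ μ.real (K (i + 1)))
    (hbase : ∀ x ∈ K 0, H x ≤ P 0)
    (hstep : ∀ i < m, ∀ x ∈ K (i + 1), x ∉ K i → H x ≤ Jb i)
    (hP : ∀ i < m, Jb i ≤ P i)
    (hP2 : ∀ i < m, P i - Jb i ≤ (P (i + 1) - Jb i) * g i)
    (hlast : P m ≤ 0) (htail : ∀ x, x ∉ K m → H x ≤ 0) :
    ∫ x, H x ∂μ ≤ 0 := by
  have h1 := chain_integral μ hH K hm hmono m Jb P g hg0 hgrow hbase hstep hP hP2 m le_rfl
  have h2 : ∫ x in K m, H x ∂μ ≤ 0 := by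
    refine h1.trans ?_
    exact mul_nonpos_of_nonpos_of_nonneg hlast measureReal_nonneg
  have h3 : ∫ x in (K m)ᶜ, H x ∂μ ≤ 0 := by
    apply setIntegral_nonpos (hm m).compl
    intro x hx
    exact htail x hx
  have h4 := integral_add_compl (f := H) (μ := μ) (hm m) hH
  linarith

variable {E : Type*} [NormedAddCommGroup E] [InnerProductSpace ℝ E] [FiniteDimensional ℝ E]
  [MeasurableSpace E] [BorelSpace E]

/-- the tangent line bound for the exponential weight -/
lemma exp_tangent {a V2 T : ℝ} (ha0 : 0 ≤ a) (ha1 : a < 1) (hV : 1 - a ≤ (1 + a) * V2) :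
    Real.exp (-T ^ 2 / 4) * (1 - (1 + T ^ 2 / 2) * a) ≤ Real.exp (-T ^ 2 / (4 * V2)) := by
  set c : ℝ := T ^ 2 / 2 with hc
  have hc0 : 0 ≤ c := by positivity
  have hV0 : 0 < V2 := by
    by_contra h
    push Not at h
    have : (1 + a) * V2 ≤ 0 := mul_nonpos_of_nonneg_of_nonpos (by linarith) h
    linarith
  by_cases hneg : 1 - (1 + c) * a ≤ 0
  · have h1 : Real.exp (-T ^ 2 / 4) * (1 - (1 + c) * a) ≤ 0 :=
      mul_nonpos_of_nonneg_of_nonpos (Real.exp_pos _).le hneg
    exact h1.trans (Real.exp_pos _).le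
  · push Not at hneg
    have h1a : 0 < 1 - a := by linarith
    have hT : T ^ 2 = 2 * c := by rw [hc]; ring
    have h2 : -T ^ 2 / 4 + -(c * (a / (1 - a))) ≤ -T ^ 2 / (4 * V2) := by
      have h3 : T ^ 2 / (4 * V2) ≤ T ^ 2 / 4 + c * (a / (1 - a)) := by
        rw [hT, div_le_iff₀ (by positivity)]
        have h4 : 1 ≤ (1 + 2 * (a / (1 - a))) * V2 := by
          have h5 : 1 + 2 * (a / (1 - a)) = (1 + a) / (1 - a) := by
            field_simp
            ring
          rw [h5, div_mul_eq_mul_div, le_div_iff₀ h1a]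
          linarith
        have h5 : (2 * c / 4 + c * (a / (1 - a))) * (4 * V2) =
            2 * c * ((1 + 2 * (a / (1 - a))) * V2) := by ring
        rw [h5]
        nlinarith
      have e1 : -T ^ 2 / (4 * V2) = -(T ^ 2 / (4 * V2)) := by ring
      have e2 : -T ^ 2 / 4 = -(T ^ 2 / 4) := by ring
      rw [e1, e2]
      linarith
    have h3 : 1 - (1 + c) * a ≤ Real.exp (-(c * (a / (1 - a)))) := by
      have h4 := Real.add_one_le_exp (-(c * (a / (1 - a))))
      have h5 : c * (a / (1 - a)) ≤ (1 + c) * a := by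
        rw [← mul_div_assoc, div_le_iff₀ h1a]
        have h6 : c * a ≤ (1 + c) * a * (1 - a) := by
          have h7 : (1 + c) * a ≤ 1 := by linarith
          have h8 : c ≤ (1 + c) * (1 - a) := by nlinarith
          nlinarith
        linarith
      linarith
    calc Real.exp (-T ^ 2 / 4) * (1 - (1 + c) * a)
        ≤ Real.exp (-T ^ 2 / 4) * Real.exp (-(c * (a / (1 - a)))) :=
          mul_le_mul_of_nonneg_left h3 (Real.exp_pos _).le
      _ = Real.exp (-T ^ 2 / 4 + -(c * (a / (1 - a)))) := (Real.exp_add _ _).symm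
      _ ≤ _ := Real.exp_le_exp.2 h2

/-- the growth of the level sets in the form used for the summation -/
lemma growth_level {ι : Type*} [Fintype ι] [Nonempty ι] (v : ι → E) (a : ι → ℝ)
    (ha0 : ∀ j, 0 ≤ a j) (ha1 : ∀ j, a j < 1) (hsum : ∑ j, a j = 1)
    (hneg : ∀ j l, j ≠ l → ⟪v j, v l⟫ ≤ 0)
    (hbal : ∑ j, (1 + a j) • v j = 0)
    (hvar : ∀ j, 1 - a j ≤ (1 + a j) * ‖v j‖ ^ 2) {t T : ℝ} (ht : 0 < t) (htT : t < T)
    (hL : 0 ≤ (Fintype.card ι : ℝ) - 1 - T ^ 2 / 2) :
    (stdGaussian E).real {x | ∀ l, ⟪v l, x⟫ ≤ t} *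
        (1 + (T - t) * (Real.exp (-T ^ 2 / 2) * ((Fintype.card ι : ℝ) - 1 - T ^ 2 / 2) ^ 2) /
          (2 * ((Fintype.card ι : ℝ) + 1) * t)) ≤
      (stdGaussian E).real {x | ∀ l, ⟪v l, x⟫ ≤ T} := by
  set N : ℝ := (Fintype.card ι : ℝ) with hN
  have hvne : ∀ j, v j ≠ 0 := by
    intro j h0
    have := hvar j
    rw [h0, norm_zero] at this
    have h1 := ha1 j
    norm_num at this
    linarith
  have hg := growth_chord v (fun j => 1 + a j) (fun j => by linarith [ha0 j]) hneg hbal hvne ht htT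
  have hk : ∑ j, (1 + a j) = N + 1 := by
    rw [Finset.sum_add_distrib, hsum]
    simp [hN]
  rw [hk] at hg
  set B : ℝ := ∑ j, Real.exp (-T ^ 2 / (4 * ‖v j‖ ^ 2)) with hB
  have hBlow : Real.exp (-T ^ 2 / 4) * (N - 1 - T ^ 2 / 2) ≤ B := by
    have h1 : ∀ j, Real.exp (-T ^ 2 / 4) * (1 - (1 + T ^ 2 / 2) * a j) ≤
        Real.exp (-T ^ 2 / (4 * ‖v j‖ ^ 2)) := fun j => exp_tangent (ha0 j) (ha1 j) (hvar j)
    have h2 := Finset.sum_le_sum fun j (_ : j ∈ Finset.univ) => h1 j
    rw [← Finset.mul_sum, Finset.sum_sub_distrib, ← Finset.mul_sum, hsum] at h2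
    simp only [Finset.sum_const, Finset.card_univ, nsmul_eq_mul, mul_one] at h2
    have e : (N - 1 - T ^ 2 / 2) = ((Fintype.card ι : ℝ) - (1 + T ^ 2 / 2)) := by
      rw [hN]; ring
    rw [e]
    exact h2
  have hB2 : Real.exp (-T ^ 2 / 2) * (N - 1 - T ^ 2 / 2) ^ 2 ≤ B ^ 2 := by
    have h1 : Real.exp (-T ^ 2 / 2) = Real.exp (-T ^ 2 / 4) ^ 2 := by
      rw [← Real.exp_nat_mul]
      congr 1
      push_cast
      ring
    rw [h1, ← mul_pow]
    apply pow_le_pow_left₀ _ hBlow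
    exact mul_nonneg (Real.exp_pos _).le hL
  refine le_trans ?_ hg
  apply mul_le_mul_of_nonneg_left _ measureReal_nonneg
  have hN0 : 0 ≤ N := by positivity
  have hD : 0 ≤ T - t := by linarith
  apply add_le_add_right
  apply div_le_div_of_nonneg_right _ (by positivity)
  exact mul_le_mul_of_nonneg_left hB2 hD

section TU

variable {ι : Type*} [Fintype ι] [Nonempty ι]

omit [Nonempty ι] in
lemma measurable_wid (v : ι → E) : Measurable (wid v) := by
  unfold wid
  exact Measurable.iSup fun j => measurable_inner_left _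

omit [FiniteDimensional ℝ E] [MeasurableSpace E] [BorelSpace E] in
lemma wid_nonneg (v : ι → E) (a : ι → ℝ) (ha0 : ∀ j, 0 ≤ a j)
    (hbal : ∑ j, (1 + a j) • v j = 0) (x : E) : 0 ≤ wid v x := by
  by_contra h
  push Not at h
  have h1 : ∑ l, (1 + a l) * ⟪v l, x⟫ = 0 := by
    have := congrArg (fun y => ⟪y, x⟫) hbal
    simp only [sum_inner, inner_smul_left, inner_zero_left] at this
    simpa using this
  have h2 : ∑ l, (1 + a l) * ⟪v l, x⟫ < 0 := by
    apply Finset.sum_neg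
    · intro l _
      have h3 := le_wid v x l
      have h4 := ha0 l
      have h5 : ⟪v l, x⟫ < 0 := by linarith
      nlinarith
    · exact Finset.univ_nonempty
  linarith

/-- The main estimate of the integrated tail of the maximum. -/
theorem key_TU (v : ι → E) (a : ι → ℝ)
    (ha0 : ∀ j, 0 ≤ a j) (ha1 : ∀ j, a j < 1) (hsum : ∑ j, a j = 1)
    (hneg : ∀ j l, j ≠ l → ⟪v j, v l⟫ ≤ 0)
    (hbal : ∑ j, (1 + a j) • v j = 0)
    (hvar : ∀ j, 1 - a j ≤ (1 + a j) * ‖v j‖ ^ 2)
    (m : ℕ) (t ρ Jb P g : ℕ → ℝ) (c : ℝ) (hc : 0 ≤ c) (hc1 : c ≤ 1)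
    (ht0 : 0 < t 0) (ht : ∀ i, i < m → t i < t (i + 1))
    (hρ : ∀ i, i ≤ m → Tf (t i) ≤ ph (t i) * ρ i)
    (hJ : ∀ i, i < m → ∀ u, t i < u → u ≤ t (i + 1) → ph u * (ρ i - c) ≤ ph 0 * Jb i)
    (hL : ∀ i, i < m → 0 ≤ (Fintype.card ι : ℝ) - 1 - t (i + 1) ^ 2 / 2)
    (hg0 : ∀ i, i < m → 0 < g i)
    (hg : ∀ i, i < m → g i ≤ 1 + (t (i + 1) - t i) * (Real.exp (-t (i + 1) ^ 2 / 2) *
      ((Fintype.card ι : ℝ) - 1 - t (i + 1) ^ 2 / 2) ^ 2) / (2 * ((Fintype.card ι : ℝ) + 1) * t i))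
    (hP0 : 1 - c ≤ P 0)
    (hP : ∀ i, i < m → Jb i ≤ P i)
    (hP2 : ∀ i, i < m → P i - Jb i ≤ (P (i + 1) - Jb i) * g i)
    (hlast : P m ≤ 0) (hρm : ρ m ≤ c) :
    ∫ x, (Tf (wid v x) - c * ph (wid v x)) ∂(stdGaussian E) ≤ 0 := by
  classical
  have htpos : ∀ i, i ≤ m → 0 < t i := by
    intro i
    induction i with
    | zero => exact fun _ => ht0
    | succ l ih =>
      intro hl
      exact (ih (by omega)).trans (ht l (by omega))
  set U : E → ℝ := wid v with hU
  have hU0 : ∀ x, 0 ≤ U x := wid_nonneg v a ha0 hbal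
  have hUm : Measurable U := measurable_wid v
  set H : E → ℝ := fun x => Tf (U x) - c * ph (U x) with hH
  have hph0 := ph_pos 0
  have hHm : Measurable H :=
    (continuous_Tf.measurable.comp hUm).sub ((continuous_ph.measurable.comp hUm).const_mul c)
  have hHb : ∀ x, ‖H x‖ ≤ 2 * ph 0 := by
    intro x
    have h1 := Tf_nonneg (U x)
    have h2 := Tf_le_ph (hU0 x)
    have h3 := ph_le_ph_zero (U x)
    have h4 := ph_pos (U x)
    rw [Real.norm_eq_abs, abs_le]
    simp only [hH]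
    constructor <;> nlinarith
  have hHint : Integrable H (stdGaussian E) :=
    Integrable.of_bound hHm.aestronglyMeasurable (2 * ph 0) (Eventually.of_forall hHb)
  have hratio : ∀ i, i ≤ m → ∀ u, t i ≤ u → Tf u ≤ ρ i * ph u := by
    intro i hi u hu
    have h1 := Tf_ratio hu
    have h2 := hρ i hi
    have h3 := ph_pos (t i)
    have h4 := ph_pos u
    have h5 : Tf u * ph (t i) ≤ (ρ i * ph u) * ph (t i) := by
      calc Tf u * ph (t i) ≤ Tf (t i) * ph u := h1
        _ ≤ (ph (t i) * ρ i) * ph u := mul_le_mul_of_nonneg_right h2 h4.le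
        _ = (ρ i * ph u) * ph (t i) := by ring
    exact le_of_mul_le_mul_right h5 h3
  set K : ℕ → Set E := fun i => {x | ∀ l, ⟪v l, x⟫ ≤ t (min i m)} with hK
  have hmem : ∀ i x, x ∈ K i ↔ U x ≤ t (min i m) := by
    intro i x
    constructor
    · intro hx
      exact wid_le v x hx
    · intro hx l
      exact (le_wid v x l).trans hx
  have htmono : ∀ i, t (min i m) ≤ t (min (i + 1) m) := by
    intro i
    by_cases hi : i < m
    · rw [min_eq_left hi.le, min_eq_left hi]
      exact (ht i hi).le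
    · have h1 : min i m = m := min_eq_right (not_lt.1 hi)
      have h2 : min (i + 1) m = m := min_eq_right (by omega)
      rw [h1, h2]
  have hKm : ∀ i, MeasurableSet (K i) := fun i => measurableSet_K v _
  have hKmono : ∀ i, K i ⊆ K (i + 1) := by
    intro i x hx
    rw [hmem] at hx ⊢
    exact hx.trans (htmono i)
  have hmin : ∀ i, i < m → min i m = i := fun i hi => min_eq_left hi.le
  have hmin2 : ∀ i, i < m → min (i + 1) m = i + 1 := fun i hi => min_eq_left hi
  have hmain := chain_final (stdGaussian E) hHint K hKm hKmono m (fun i => ph 0 * Jb i)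
    (fun i => ph 0 * P i) g (fun i hi => hg0 i hi) ?_ ?_ ?_ ?_ ?_ ?_ ?_
  · exact hmain
  · -- growth
    intro i hi
    have htt := ht i hi
    have h0 : 0 < t i := htpos i hi.le
    have hlev := growth_level v a ha0 ha1 hsum hneg hbal hvar h0 htt (hL i hi)
    have hK1 : K i = {x | ∀ l, ⟪v l, x⟫ ≤ t i} := by
      simp only [hK, hmin i hi]
    have hK2 : K (i + 1) = {x | ∀ l, ⟪v l, x⟫ ≤ t (i + 1)} := by
      simp only [hK, hmin2 i hi]
    rw [hK1, hK2]
    refine le_trans ?_ hlev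
    rw [mul_comm]
    exact mul_le_mul_of_nonneg_left (hg i hi) measureReal_nonneg
  · -- base
    intro x _
    have h1 := Tf_le_ph (hU0 x)
    have h2 := ph_le_ph_zero (U x)
    have h3 := ph_pos (U x)
    simp only [hH]
    have h4 : Tf (U x) - c * ph (U x) ≤ (1 - c) * ph (U x) := by nlinarith
    have h5 : (1 - c) * ph (U x) ≤ (1 - c) * ph 0 :=
      mul_le_mul_of_nonneg_left h2 (by linarith)
    have h6 : (1 - c) * ph 0 ≤ P 0 * ph 0 := mul_le_mul_of_nonneg_right hP0 hph0.le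
    linarith
  · -- step
    intro i hi x hx hx2
    rw [hmem, hmin2 i hi] at hx
    rw [hmem, hmin i hi] at hx2
    push Not at hx2
    have h1 := hratio i hi.le (U x) hx2.le
    have h2 := hJ i hi (U x) hx2 hx
    simp only [hH]
    nlinarith [ph_pos (U x)]
  · intro i hi
    exact mul_le_mul_of_nonneg_left (hP i hi) hph0.le
  · intro i hi
    have := hP2 i hi
    have h2 : ph 0 * (P i - Jb i) ≤ ph 0 * ((P (i + 1) - Jb i) * g i) :=
      mul_le_mul_of_nonneg_left this hph0.le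
    nlinarith
  · exact mul_nonpos_of_nonneg_of_nonpos hph0.le hlast
  · intro x hx
    rw [hmem, min_self] at hx
    push Not at hx
    have h1 := hratio m le_rfl (U x) hx.le
    have h2 := ph_pos (U x)
    simp only [hH]
    nlinarith

end TU

end Vale.Agent.P226h6
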